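import Vale.Agent.P022.H420.CM5

/-!
P022, explicit reciprocity for `K = ℚ(√-3)`: [FROB] the Frobenius map is an element of `ℤ[ω]`.
-/

open WeierstrassCurve WeierstrassCurve.Affine Polynomial

noncomputable section

namespace Vale.Agent.P022.CM

/-- a point of the hexagonal lattice modulo `m` has a representative of norm at most `m²/3` -/
theorem hex0 (m : ℤ) (hm : 0 < m) (a b : ℤ) (hb : 0 ≤ b) (hab : b ≤ a) (ha : a < m) :
    ∃ a' b' : ℤ, m ∣ a - a' ∧ m ∣ b - b' ∧ 3 * (a' ^ 2 - a' * b' + b' ^ 2) ≤ m ^ 2 := by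
  by_contra hcon
  push Not at hcon
  have h0 := hcon a b (by simp) (by simp)
  have h1 := hcon (a - m) b (by simp) (by simp)
  have h2 := hcon (a - m) (b - m) (by simp) (by simp)
  have k0 : 0 < (m - a) * (3 * (a ^ 2 - a * b + b ^ 2) - m ^ 2) :=
    mul_pos (by linarith) (by linarith)
  have k1 : 0 ≤ (a - b) * (3 * ((a - m) ^ 2 - (a - m) * b + b ^ 2) - m ^ 2) :=
    mul_nonneg (by linarith) (by linarith)
  have k2 : 0 ≤ b * (3 * ((a - m) ^ 2 - (a - m) * (b - m) + (b - m) ^ 2) - m ^ 2) :=
    mul_nonneg hb (by linarith)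
  have j0 := mul_nonneg hm.le (sq_nonneg ((m - a) - (a - b)))
  have j1 := mul_nonneg hm.le (sq_nonneg ((a - b) - b))
  have j2 := mul_nonneg hm.le (sq_nonneg ((m - a) - b))
  nlinarith [k0, k1, k2, j0, j1, j2]

theorem hex (m : ℤ) (hm : 0 < m) (a b : ℤ) :
    ∃ a' b' : ℤ, m ∣ a - a' ∧ m ∣ b - b' ∧ 3 * (a' ^ 2 - a' * b' + b' ^ 2) ≤ m ^ 2 := by
  have ea : m ∣ a - a % m := Int.dvd_self_sub_emod
  have eb : m ∣ b - b % m := Int.dvd_self_sub_emod
  have a0 := Int.emod_nonneg a hm.ne'
  have b0 := Int.emod_nonneg b hm.ne'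
  have a1 := Int.emod_lt_of_pos a hm
  have b1 := Int.emod_lt_of_pos b hm
  rcases le_total (b % m) (a % m) with h | h
  · obtain ⟨a', b', h1, h2, h3⟩ := hex0 m hm (a % m) (b % m) b0 h a1
    refine ⟨a', b', ?_, ?_, h3⟩
    · have := dvd_add ea h1; rwa [show a - a % m + (a % m - a') = a - a' by ring] at this
    · have := dvd_add eb h2; rwa [show b - b % m + (b % m - b') = b - b' by ring] at this
  · obtain ⟨b', a', h1, h2, h3⟩ := hex0 m hm (b % m) (a % m) a0 h b1
    refine ⟨a', b', ?_, ?_, by linarith⟩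
    · have := dvd_add ea h2; rwa [show a - a % m + (a % m - a') = a - a' by ring] at this
    · have := dvd_add eb h1; rwa [show b - b % m + (b % m - b') = b - b' by ring] at this

section
variable {L L' : Type*} [Field L] [DecidableEq L] [Field L'] [DecidableEq L'] {B : L} {B' : L'}

theorem mp_om (σ : L →+* L') (hB : σ B = B') (h6 : (6 : L) * B ≠ 0) (h6' : (6 : L') * B' ≠ 0)
    (w : L) (hw : w ^ 2 + w + 1 = 0) (w' : L') (hw' : w' ^ 2 + w' + 1 = 0) (hσ : σ w = w')
    (P : Pt B) : mp σ hB h6' (om h6 w hw P) = om h6' w' hw' (mp σ hB h6' P) := by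
  rcases P with _ | ⟨x, y, h⟩
  · show mp σ hB h6' (om h6 w hw 0) = om h6' w' hw' (mp σ hB h6' 0)
    simp
  · have he := eqn.1 h.1
    have he' : (σ y) ^ 2 = (σ x) ^ 3 + B' := by
      rw [← hB, ← map_pow, he, map_add, map_pow]
    have n1 : (Wc B).Nonsingular (w * x) y := nons h6 (by
      linear_combination he - x ^ 3 * (w3 hw))
    have n2 : (Wc B').Nonsingular (σ x) (σ y) := nons h6' he'
    have n3 : (Wc B').Nonsingular (w' * σ x) (σ y) := nons h6' (by
      linear_combination he' - (σ x) ^ 3 * (w3 hw'))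
    have n4 : (Wc B').Nonsingular (σ (w * x)) (σ y) := by rwa [map_mul, hσ]
    rw [om_some h6 w hw h n1, mp_some σ hB h6' n1 n4, mp_some σ hB h6' h n2,
      om_some h6' w' hw' n2 n3, Point.some.injEq]
    exact ⟨by rw [map_mul, hσ], rfl⟩

theorem mp_en (σ : L →+* L') (hB : σ B = B') (h6 : (6 : L) * B ≠ 0) (h6' : (6 : L') * B' ≠ 0)
    (w : L) (hw : w ^ 2 + w + 1 = 0) (w' : L') (hw' : w' ^ 2 + w' + 1 = 0) (hσ : σ w = w')
    (a b : ℤ) (P : Pt B) : mp σ hB h6' (en h6 w hw a b P) = en h6' w' hw' a b (mp σ hB h6' P) := by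
  rw [en_apply, en_apply, map_add, map_zsmul, map_zsmul, mp_om σ hB h6 h6' w hw w' hw' hσ]

theorem en_dvd (h6 : (6 : L) * B ≠ 0) (w : L) (hw : w ^ 2 + w + 1 = 0) {m a b : ℤ} (ha : m ∣ a)
    (hb : m ∣ b) {P : Pt B} (hP : m • P = 0) : en h6 w hw a b P = 0 := by
  obtain ⟨c, rfl⟩ := ha
  obtain ⟨d, rfl⟩ := hb
  rw [en_apply, mul_comm m c, mul_comm m d, mul_smul, mul_smul, hP, ← map_zsmul, hP, map_zero,
    smul_zero, smul_zero, add_zero]

theorem en_comm (h6 : (6 : L) * B ≠ 0) (w : L) (hw : w ^ 2 + w + 1 = 0) (a b c d : ℤ)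
    (P : Pt B) : en h6 w hw a b (en h6 w hw c d P) = en h6 w hw c d (en h6 w hw a b P) := by
  rw [en_mul, en_mul]
  congr 2 <;> ring

end

/-- [FROB] -/
theorem FROB (hT : TORStmt) : FROBStmt := by
  classical
  intro F _ _ _ B h6 w hw σ q hq hσ hσw hB
  obtain ⟨P, hP0, hP2, hPgen, hPann⟩ := hT F B h6 w hw
  have hPn : ∀ n, (2 ^ n : ℕ) • P n = 0 := by
    intro n
    induction n with
    | zero => rw [hP0, smul_zero]
    | succ k ih => rw [pow_succ, mul_smul, hP2, ih]
  have hPz : ∀ n, (2 ^ n : ℤ) • P n = 0 := by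
    intro n
    have := hPn n
    rw [← natCast_zsmul] at this
    exact_mod_cast this
  set Fr := mp σ hB h6 with hFr
  have hcomm : ∀ (a b : ℤ) (Q : Pt B), Fr (en h6 w hw a b Q) = en h6 w hw a b (Fr Q) :=
    fun a b Q => mp_en σ hB h6 h6 w hw w hw hσw a b Q
  set n : ℕ := 6 + 6 * q with hn
  have hbig : 6 + 6 * q < 4 ^ n := by
    rw [← hn]; exact Nat.lt_pow_self (by norm_num)
  obtain ⟨a₀, b₀, hab₀⟩ := hPgen n (Fr (P n)) (by rw [← map_nsmul, hPn, map_zero])
  obtain ⟨a, b, ha, hb, hN⟩ := hex (2 ^ n) (by positivity) a₀ b₀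
  have hab : Fr (P n) = en h6 w hw a b (P n) := by
    rw [hab₀, ← sub_eq_zero, ← AddMonoidHom.sub_apply, ← en_sub]
    exact en_dvd h6 w hw ha hb (hPz n)
  set θ := en h6 w hw a b with hθ
  have hall : ∀ c d : ℤ, Fr (en h6 w hw c d (P n)) = θ (en h6 w hw c d (P n)) := by
    intro c d
    rw [hcomm, hab, hθ, en_comm]
  obtain ⟨U, V, u1, u2, v1, v2, hz, hr⟩ := ss h6 w hw a b
  set N := (a ^ 2 - a * b + b ^ 2).toNat with hNN
  have hN' : 3 * N ≤ 4 ^ n := by
    have h1 : (N : ℤ) = a ^ 2 - a * b + b ^ 2 := Int.toNat_of_nonneg (Nnn a b)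
    rw [← h1] at hN
    have h2 : ((2 : ℤ) ^ n) ^ 2 = 4 ^ n := by rw [← pow_mul, mul_comm, pow_mul]; norm_num
    rw [h2] at hN
    exact_mod_cast hN
  -- the polynomial identity
  have hH : U - X ^ q * V = 0 := by
    by_contra hH
    set H := U - X ^ q * V with hHdef
    have hdeg : H.natDegree ≤ q + N := by
      refine (natDegree_sub_le _ _).trans (max_le (by rw [u2]; omega) ?_)
      refine natDegree_mul_le.trans ?_
      rw [natDegree_X_pow]
      have : V.natDegree ≤ N := natDegree_le_of_degree_le v1.le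
      omega
    have hroots : H.roots.toFinset.card ≤ q + N :=
      (Multiset.toFinset_card_le _).trans ((card_roots' H).trans hdeg)
    set S : Finset (ℕ × ℕ) := Finset.range (2 ^ n) ×ˢ Finset.range (2 ^ n) with hS
    set p : ℕ × ℕ → Pt B := fun cd => en h6 w hw cd.1 cd.2 (P n) with hp
    have hinj : Set.InjOn p (S : Set (ℕ × ℕ)) := by
      rintro ⟨c, d⟩ hcd ⟨c', d'⟩ hcd' heq
      simp only [hS, Finset.coe_product, Set.mem_prod, Finset.mem_coe, Finset.mem_range] at hcd hcd'
      have h0 : en h6 w hw ((c : ℤ) - c') ((d : ℤ) - d') (P n) = 0 := by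
        rw [en_sub, AddMonoidHom.sub_apply, sub_eq_zero]
        exact heq
      obtain ⟨h1, h2⟩ := hPann n _ _ h0
      have e1 : (c : ℤ) - c' = 0 := by
        apply Int.eq_zero_of_abs_lt_dvd h1
        rw [abs_lt]
        constructor
        · have := hcd'.1
          have : (c' : ℤ) < 2 ^ n := by exact_mod_cast this
          have : (0 : ℤ) ≤ c := by positivity
          linarith
        · have := hcd.1
          have : (c : ℤ) < 2 ^ n := by exact_mod_cast this
          have : (0 : ℤ) ≤ c' := by positivity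
          linarith
      have e2 : (d : ℤ) - d' = 0 := by
        apply Int.eq_zero_of_abs_lt_dvd h2
        rw [abs_lt]
        constructor
        · have := hcd'.2
          have : (d' : ℤ) < 2 ^ n := by exact_mod_cast this
          have : (0 : ℤ) ≤ d := by positivity
          linarith
        · have := hcd.2
          have : (d : ℤ) < 2 ^ n := by exact_mod_cast this
          have : (0 : ℤ) ≤ d' := by positivity
          linarith
      rw [Prod.mk.injEq]
      exact ⟨by omega, by omega⟩
    have hcard : S.card ≤ 2 * (S.image (fun cd => (p cd).xRep)).card := by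
      apply Finset.card_le_mul_card_image
      intro v hv
      obtain ⟨cd₀, h₀, rfl⟩ := Finset.mem_image.1 hv
      calc (S.filter fun x => (p x).xRep = (p cd₀).xRep).card
          = ((S.filter fun x => (p x).xRep = (p cd₀).xRep).image p).card := by
            rw [Finset.card_image_of_injOn]
            exact hinj.mono (by
              intro z hz'
              exact (Finset.mem_filter.1 hz').1)
        _ ≤ ({p cd₀, -p cd₀} : Finset (Pt B)).card := by
            apply Finset.card_le_card
            intro z hz'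
            obtain ⟨y, hy, rfl⟩ := Finset.mem_image.1 hz'
            rcases Point.eq_or_eq_neg_of_xRep_eq_xRep (Finset.mem_filter.1 hy).2 with h | h
            · rw [h]; simp
            · rw [h]; simp
        _ ≤ 2 := Finset.card_le_two
    have himg : (S.image (fun cd => (p cd).xRep)).card ≤ 1 + (q + N) := by
      have hsub : S.image (fun cd => (p cd).xRep) ⊆
          insert (![1, 0] : Fin 2 → F) (H.roots.toFinset.image (fun x => ![x, 1])) := by
        intro v hv
        obtain ⟨cd, -, rfl⟩ := Finset.mem_image.1 hv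
        rcases hpc : p cd with _ | ⟨x, y, h⟩
        · exact Finset.mem_insert_self _ _
        · apply Finset.mem_insert_of_mem
          apply Finset.mem_image.2
          refine ⟨x, ?_, rfl⟩
          rw [Multiset.mem_toFinset, mem_roots hH]
          have e1 := hall cd.1 cd.2
          have e2 : en h6 w hw (cd.1 : ℤ) (cd.2 : ℤ) (P n) = Point.some x y h := hpc
          rw [e2] at e1
          have he := eqn.1 h.1
          have n2 : (Wc B).Nonsingular (σ x) (σ y) := nons h6 (by
            rw [← map_pow, he, map_add, map_pow, hB])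
          have e3 : Fr (Point.some x y h) = Point.some (σ x) (σ y) n2 := mp_some σ hB h6 h n2
          have e4 := hr x y h
          rw [← e1, e3] at e4
          simp only [Point.xRep_some, Matrix.cons_val_zero, Matrix.cons_val_one, hσ] at e4
          rw [IsRoot.def, hHdef, eval_sub, eval_mul, eval_pow, eval_X, e4]
          ring
      refine (Finset.card_le_card hsub).trans ((Finset.card_insert_le _ _).trans ?_)
      have := (Finset.card_image_le (s := H.roots.toFinset) (f := fun x : F => ![x, 1]))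
      omega
    have hScard : S.card = 4 ^ n := by
      rw [hS, Finset.card_product, Finset.card_range, ← mul_pow]; norm_num
    omega
  have hU : U = X ^ q * V := sub_eq_zero.1 hH
  -- `V = 1`
  obtain ⟨c, hc⟩ : ∃ c, V = C c := by
    have hd : V.degree = 0 := by
      by_contra hd
      obtain ⟨x, hx⟩ := IsAlgClosed.exists_root V hd
      refine hz x ⟨?_, hx⟩
      rw [hU, eval_mul, hx, mul_zero]
    exact ⟨_, eq_C_of_degree_eq_zero hd⟩
  have hc1 : c = 1 := by
    have h1 := u1.leadingCoeff
    rw [hU, hc, leadingCoeff_mul, leadingCoeff_X_pow, leadingCoeff_C, one_mul] at h1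
    exact h1
  subst hc1
  rw [map_one] at hc
  subst hc
  rw [mul_one] at hU v2
  subst hU
  rw [natDegree_X_pow] at u2
  have hNq : a ^ 2 - a * b + b ^ 2 = q := by
    have h1 : (N : ℤ) = a ^ 2 - a * b + b ^ 2 := Int.toNat_of_nonneg (Nnn a b)
    rw [← h1, u2]
  have hzero : (a : F) + b * w = 0 := by
    rw [← u2, coeff_X_of_ne_one (by omega)] at v2
    exact pow_eq_zero_iff (two_ne_zero) |>.1 v2.symm
  -- `θ P = ± Fr P`
  have hpm : ∀ Q : Pt B, θ Q = Fr Q ∨ θ Q = -Fr Q := by
    intro Q
    rcases Q with _ | ⟨x, y, h⟩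
    · left
      show θ 0 = Fr 0
      rw [map_zero, map_zero]
    · apply Point.eq_or_eq_neg_of_xRep_eq_xRep
      have he := eqn.1 h.1
      have n2 : (Wc B).Nonsingular (σ x) (σ y) := nons h6 (by
        rw [← map_pow, he, map_add, map_pow, hB])
      have e3 : Fr (Point.some x y h) = Point.some (σ x) (σ y) n2 := mp_some σ hB h6 h n2
      have e4 := hr x y h
      rw [eval_one, mul_one, eval_pow, eval_X] at e4
      rw [e3, Point.xRep_some]
      rcases xRep_cases (θ (Point.some x y h)) with h1 | ⟨h0, h1⟩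
      · rw [h1, one_mul] at e4
        ext i
        fin_cases i
        · simpa [hσ] using e4
        · simpa using h1
      · rw [h0, h1, zero_mul] at e4
        exact absurd e4 one_ne_zero
  by_cases hA : ∀ Q : Pt B, θ Q = Fr Q
  · exact ⟨a, b, hNq, hzero, fun Q => (hA Q).symm⟩
  · push Not at hA
    obtain ⟨Q₀, hQ₀⟩ := hA
    have hB' : ∀ Q : Pt B, θ Q = -Fr Q := by
      intro Q
      by_contra hQ
      have h1 : θ Q = Fr Q := (hpm Q).resolve_right hQ
      have h2 : θ Q₀ = -Fr Q₀ := (hpm Q₀).resolve_left hQ₀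
      rcases hpm (Q + Q₀) with h | h
      · rw [map_add, map_add, h1, h2] at h
        apply hQ₀
        rw [h2]
        exact add_left_cancel h
      · rw [map_add, map_add, h1, h2, neg_add] at h
        apply hQ
        rw [h1]
        exact add_right_cancel h
    refine ⟨-a, -b, by rw [← hNq]; ring, ?_, fun Q => ?_⟩
    · push_cast
      linear_combination -hzero
    · rw [en_neg, AddMonoidHom.neg_apply, ← hθ, hB' Q, neg_neg]

end Vale.Agent.P022.CM
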