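import Mathlib

/-!
P022, explicit reciprocity for `K = ℚ(√-3)`: the curve `y² = x³ + B`, its points, the maps
`(x, y) ↦ (u σ x, v σ y)` and the automorphism `ω : (x, y) ↦ (w x, y)`.
-/

open WeierstrassCurve WeierstrassCurve.Affine

noncomputable section

namespace Vale.Agent.P022.CM

variable {L : Type*} [Field L]

/-- the curve `y² = x³ + B` -/
@[simps] def Wc (B : L) : WeierstrassCurve.Affine L where
  a₁ := 0
  a₂ := 0
  a₃ := 0
  a₄ := 0
  a₆ := B

/-- the points of `y² = x³ + B` -/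
abbrev Pt (B : L) : Type _ := (Wc B).Point

variable {B : L}

theorem eqn {x y : L} : (Wc B).Equation x y ↔ y ^ 2 = x ^ 3 + B := by
  rw [equation_iff]; simp

theorem nons (h6 : (6 : L) * B ≠ 0) {x y : L} (h : y ^ 2 = x ^ 3 + B) :
    (Wc B).Nonsingular x y := by
  have h2 : (2 : L) ≠ 0 := by
    intro h2; apply h6; linear_combination 3 * B * h2
  have h3 : (3 : L) ≠ 0 := by
    intro h3; apply h6; linear_combination 2 * B * h3
  have hB : B ≠ 0 := right_ne_zero_of_mul h6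
  rw [nonsingular_iff]
  refine ⟨eqn.2 h, ?_⟩
  by_cases hx : x = 0
  · right
    subst hx
    simp only [Wc_a₁, Wc_a₃, zero_mul, sub_zero]
    intro hy
    have : (2 : L) * y = 0 := by linear_combination hy
    rcases mul_eq_zero.1 this with h' | h'
    · exact h2 h'
    · subst h'
      apply hB
      linear_combination -h
  · left
    simp only [Wc_a₁, Wc_a₂, Wc_a₄]
    intro h'
    have : (3 : L) * x ^ 2 = 0 := by linear_combination -h'
    rcases mul_eq_zero.1 this with h'' | h''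
    · exact h3 h''
    · exact hx (by simpa using h'')

/-- the point with coordinates `x`, `y` -/
def pt (h6 : (6 : L) * B ≠ 0) (x y : L) (h : y ^ 2 = x ^ 3 + B) : Pt B := .some x y (nons h6 h)

theorem neg_some' {x y : L} (h : (Wc B).Nonsingular x y) :
    -(Point.some x y h) = Point.some x (-y) (by
      have := (nonsingular_neg (W' := Wc B) x y).2 h
      simpa [negY] using this) := by
  rw [Point.neg_some]
  simp [negY]

variable [DecidableEq L]

/-- the chord -/
theorem add_chord {x₁ y₁ x₂ y₂ : L} (h₁ : (Wc B).Nonsingular x₁ y₁)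
    (h₂ : (Wc B).Nonsingular x₂ y₂) (hx : x₁ ≠ x₂) {s : L} (hs : s * (x₁ - x₂) = y₁ - y₂)
    {x₃ y₃ : L} (h₃ : (Wc B).Nonsingular x₃ y₃) (hx₃ : x₃ = s ^ 2 - x₁ - x₂)
    (hy₃ : y₃ = -(y₁ + s * (x₃ - x₁))) :
    Point.some x₁ y₁ h₁ + Point.some x₂ y₂ h₂ = Point.some x₃ y₃ h₃ := by
  have hd : x₁ - x₂ ≠ 0 := sub_ne_zero.2 hx
  have hs' : s = (y₁ - y₂) / (x₁ - x₂) := by
    rw [eq_div_iff hd]; exact hs
  rw [Point.add_of_X_ne hx]
  have hsl : (Wc B).slope x₁ x₂ y₁ y₂ = s := by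
    rw [slope_of_X_ne hx, hs']
  have hX : (Wc B).addX x₁ x₂ ((Wc B).slope x₁ x₂ y₁ y₂) = x₃ := by
    rw [hsl, hx₃]; simp [addX]
  have hY : (Wc B).addY x₁ x₂ y₁ ((Wc B).slope x₁ x₂ y₁ y₂) = y₃ := by
    rw [addY, negAddY, hX, hsl, hy₃]
    simp [negY]; ring
  rw [Point.some.injEq]
  exact ⟨hX, hY⟩

/-- the tangent -/
theorem add_tan {x₁ y₁ : L} (h₁ : (Wc B).Nonsingular x₁ y₁) (hy : 2 * y₁ ≠ 0) {s : L}
    (hs : s * (2 * y₁) = 3 * x₁ ^ 2)
    {x₃ y₃ : L} (h₃ : (Wc B).Nonsingular x₃ y₃) (hx₃ : x₃ = s ^ 2 - 2 * x₁)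
    (hy₃ : y₃ = -(y₁ + s * (x₃ - x₁))) :
    Point.some x₁ y₁ h₁ + Point.some x₁ y₁ h₁ = Point.some x₃ y₃ h₃ := by
  have hn : (Wc B).negY x₁ y₁ = -y₁ := by simp [negY]
  have hne : y₁ ≠ (Wc B).negY x₁ y₁ := by
    rw [hn]; intro h'; apply hy; linear_combination h'
  rw [Point.add_self_of_Y_ne hne]
  have hsl : (Wc B).slope x₁ x₁ y₁ y₁ = s := by
    rw [slope_of_Y_ne rfl hne, hn]
    rw [div_eq_iff (by rw [sub_neg_eq_add, ← two_mul]; exact hy)]
    simp only [Wc_a₁, Wc_a₂, Wc_a₄]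
    linear_combination -hs
  have hX : (Wc B).addX x₁ x₁ ((Wc B).slope x₁ x₁ y₁ y₁) = x₃ := by
    rw [hsl, hx₃]; simp [addX]; ring
  have hY : (Wc B).addY x₁ x₁ y₁ ((Wc B).slope x₁ x₁ y₁ y₁) = y₃ := by
    rw [addY, negAddY, hX, hsl, hy₃]
    simp [negY]; ring
  rw [Point.some.injEq]
  exact ⟨hX, hY⟩

theorem add_opp {x₁ y₁ x₂ y₂ : L} (h₁ : (Wc B).Nonsingular x₁ y₁)
    (h₂ : (Wc B).Nonsingular x₂ y₂) (hx : x₁ = x₂) (hy : y₁ = -y₂) :
    Point.some x₁ y₁ h₁ + Point.some x₂ y₂ h₂ = 0 :=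
  Point.add_of_Y_eq hx (by simp [negY, hy])

/-- nonsingularity of the sum, in coordinates -/
theorem nons_chord {x₁ y₁ x₂ y₂ : L} (h₁ : (Wc B).Nonsingular x₁ y₁)
    (h₂ : (Wc B).Nonsingular x₂ y₂) (hx : x₁ ≠ x₂) {s : L} (hs : s * (x₁ - x₂) = y₁ - y₂) :
    (Wc B).Nonsingular (s ^ 2 - x₁ - x₂) (-(y₁ + s * (s ^ 2 - x₁ - x₂ - x₁))) := by
  have hd : x₁ - x₂ ≠ 0 := sub_ne_zero.2 hx
  have := nonsingular_add h₁ h₂ (fun h' => hx h'.1)
  have hsl : (Wc B).slope x₁ x₂ y₁ y₂ = s := by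
    rw [slope_of_X_ne hx, div_eq_iff hd, hs]
  rw [addY, negAddY, hsl] at this
  have eX : (Wc B).addX x₁ x₂ s = s ^ 2 - x₁ - x₂ := by simp [addX]
  rw [eX] at this
  convert this using 1
  simp [negY]; ring

theorem nons_tan {x₁ y₁ : L} (h₁ : (Wc B).Nonsingular x₁ y₁) (hy : 2 * y₁ ≠ 0) {s : L}
    (hs : s * (2 * y₁) = 3 * x₁ ^ 2) :
    (Wc B).Nonsingular (s ^ 2 - 2 * x₁) (-(y₁ + s * (s ^ 2 - 2 * x₁ - x₁))) := by
  have hn : (Wc B).negY x₁ y₁ = -y₁ := by simp [negY]
  have hm : ¬(x₁ = x₁ ∧ y₁ = (Wc B).negY x₁ y₁) := by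
    rintro ⟨-, h'⟩
    rw [hn] at h'
    apply hy
    linear_combination h'
  have := nonsingular_add h₁ h₁ hm
  have hsl : (Wc B).slope x₁ x₁ y₁ y₁ = s := by
    rw [slope_of_Y_ne rfl (fun h' => hm ⟨rfl, h'⟩)]
    rw [hn, div_eq_iff (by rw [sub_neg_eq_add, ← two_mul]; exact hy)]
    simp only [Wc_a₁, Wc_a₂, Wc_a₄]
    linear_combination -hs
  rw [addY, negAddY, hsl] at this
  have eX : (Wc B).addX x₁ x₁ s = s ^ 2 - 2 * x₁ := by simp [addX]; ring
  rw [eX] at this
  convert this using 1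
  simp [negY]; ring

/-- the three cases of the addition law -/
theorem add_cases {x₁ y₁ x₂ y₂ : L} (h₁ : (Wc B).Nonsingular x₁ y₁)
    (h₂ : (Wc B).Nonsingular x₂ y₂) : x₁ ≠ x₂ ∨ (x₁ = x₂ ∧ y₁ = -y₂) ∨
      (x₁ = x₂ ∧ y₁ = y₂ ∧ 2 * y₁ ≠ 0) := by
  by_cases hx : x₁ = x₂
  · right
    by_cases hy : y₁ = -y₂
    · exact Or.inl ⟨hx, hy⟩
    · right
      have hyy : y₁ = y₂ := by
        have e : (y₁ - y₂) * (y₁ + y₂) = 0 := by
          have e1 := eqn.1 h₁.1
          have e2 := eqn.1 h₂.1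
          rw [hx] at e1
          linear_combination e1 - e2
        rcases mul_eq_zero.1 e with e | e
        · exact sub_eq_zero.1 e
        · exact absurd (by linear_combination e) hy
      refine ⟨hx, hyy, fun h' => hy ?_⟩
      rw [← hyy]
      linear_combination h'
  · exact Or.inl hx

/-- the map `(x, y) ↦ (u σ x, v σ y)` -/
def mono {L' : Type*} [Field L'] [DecidableEq L'] {B' : L'} (σ : L →+* L') (u v : L')
    (huv : u ^ 3 = v ^ 2) (hB : v ^ 2 * σ B = B') (h6 : (6 : L') * B' ≠ 0) : Pt B →+ Pt B' where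
  toFun P := match P with
    | 0 => 0
    | .some x y h => pt h6 (u * σ x) (v * σ y) (by
        have := congrArg σ (eqn.1 h.1)
        simp only [map_add, map_pow] at this
        linear_combination v ^ 2 * this + (σ x) ^ 3 * (-huv) + hB)
  map_zero' := rfl
  map_add' := by
    have hv : v ≠ 0 := by
      rintro rfl
      apply h6
      rw [← hB]; ring
    have hu : u ≠ 0 := by
      rintro rfl
      have : v ^ 2 = 0 := by rw [← huv]; ring
      exact hv (by simpa using this)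
    have hinj := σ.injective
    rintro (_ | ⟨x₁, y₁, h₁⟩) (_ | ⟨x₂, y₂, h₂⟩)
    any_goals rfl
    rcases add_cases h₁ h₂ with hx | ⟨hx, hy⟩ | ⟨hx, hy, hy2⟩
    · have hd : x₁ - x₂ ≠ 0 := sub_ne_zero.2 hx
      obtain ⟨s, hs⟩ : ∃ s, s * (x₁ - x₂) = y₁ - y₂ := ⟨(y₁ - y₂) / (x₁ - x₂), by field_simp⟩
      rw [add_chord h₁ h₂ hx hs (nons_chord h₁ h₂ hx hs) rfl rfl]
      refine (add_chord (s := v * σ s / u) _ _ ?_ ?_ _ ?_ ?_).symm
      · intro h'
        exact hx (hinj (mul_left_cancel₀ hu h'))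
      · have := congrArg σ hs
        simp only [map_mul, map_sub] at this
        field_simp
        linear_combination this
      · simp only [map_sub, map_pow]
        field_simp
        linear_combination (σ s) ^ 2 * huv
      · simp only [map_sub, map_mul, map_pow, map_add, map_neg]
        field_simp
    · rw [add_opp h₁ h₂ hx hy]
      refine (add_opp _ _ (by rw [hx]) ?_).symm
      rw [hy, map_neg]; ring
    · subst hx
      subst hy
      obtain ⟨s, hs⟩ : ∃ s, s * (2 * y₁) = 3 * x₁ ^ 2 := ⟨3 * x₁ ^ 2 / (2 * y₁), by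
        rw [div_mul_cancel₀ _ hy2]⟩
      rw [add_tan h₁ hy2 hs (nons_tan h₁ hy2 hs) rfl rfl]
      refine (add_tan (s := v * σ s / u) _ ?_ ?_ _ ?_ ?_).symm
      · intro h'
        have h'' : v * σ (2 * y₁) = 0 := by rw [map_mul, map_ofNat]; linear_combination h'
        rcases mul_eq_zero.1 h'' with h3 | h3
        · exact hv h3
        · exact hy2 (hinj (by rw [h3, map_zero]))
      · have := congrArg σ hs
        simp only [map_mul, map_pow, map_ofNat] at this
        field_simp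
        linear_combination v ^ 2 * this - 3 * (σ x₁) ^ 2 * huv
      · simp only [map_sub, map_mul, map_pow, map_ofNat]
        field_simp
        linear_combination (σ s) ^ 2 * huv
      · simp only [map_sub, map_mul, map_pow, map_ofNat, map_add, map_neg]
        field_simp

theorem mono_some {L' : Type*} [Field L'] [DecidableEq L'] {B' : L'} (σ : L →+* L') (u v : L')
    (huv : u ^ 3 = v ^ 2) (hB : v ^ 2 * σ B = B') (h6 : (6 : L') * B' ≠ 0) {x y : L}
    (h : (Wc B).Nonsingular x y) : mono σ u v huv hB h6 (.some x y h) =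
      pt h6 (u * σ x) (v * σ y) (by
        have := congrArg σ (eqn.1 h.1)
        simp only [map_add, map_pow] at this
        linear_combination v ^ 2 * this + (σ x) ^ 3 * (-huv) + hB) := rfl

/-- the map `(x, y) ↦ (σ x, σ y)` -/
def mp {L' : Type*} [Field L'] [DecidableEq L'] {B' : L'} (σ : L →+* L') (hB : σ B = B')
    (h6 : (6 : L') * B' ≠ 0) : Pt B →+ Pt B' :=
  mono σ 1 1 (by ring) (by rw [hB]; ring) h6

theorem mp_some {L' : Type*} [Field L'] [DecidableEq L'] {B' : L'} (σ : L →+* L') (hB : σ B = B')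
    (h6 : (6 : L') * B' ≠ 0) {x y : L} (h : (Wc B).Nonsingular x y)
    (h' : (Wc B').Nonsingular (σ x) (σ y)) :
    mp σ hB h6 (.some x y h) = .some (σ x) (σ y) h' := by
  unfold mp
  rw [mono_some, pt, Point.some.injEq]
  exact ⟨one_mul _, one_mul _⟩

omit [DecidableEq L] in
theorem w3 {w : L} (hw : w ^ 2 + w + 1 = 0) : w ^ 3 = 1 := by
  linear_combination (w - 1) * hw

/-- the automorphism `ω : (x, y) ↦ (w x, y)` -/
def om (h6 : (6 : L) * B ≠ 0) (w : L) (hw : w ^ 2 + w + 1 = 0) : Pt B →+ Pt B :=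
  mono (RingHom.id L) w 1 (by rw [w3 hw]; ring) (by simp) h6

theorem om_some (h6 : (6 : L) * B ≠ 0) (w : L) (hw : w ^ 2 + w + 1 = 0) {x y : L}
    (h : (Wc B).Nonsingular x y) (h' : (Wc B).Nonsingular (w * x) y) :
    om h6 w hw (.some x y h) = .some (w * x) y h' := by
  unfold om
  rw [mono_some, pt, Point.some.injEq]
  exact ⟨rfl, one_mul _⟩

/-- `ω² + ω + 1 = 0` -/
theorem om_rel (h6 : (6 : L) * B ≠ 0) (w : L) (hw : w ^ 2 + w + 1 = 0) (P : Pt B) :
    om h6 w hw (om h6 w hw P) + om h6 w hw P + P = 0 := by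
  have h3 : (3 : L) ≠ 0 := by
    intro h3; apply h6; linear_combination 2 * B * h3
  have h2 : (2 : L) ≠ 0 := by
    intro h2; apply h6; linear_combination 3 * B * h2
  have hB : B ≠ 0 := right_ne_zero_of_mul h6
  have hw1 : w ≠ 1 := by
    rintro rfl; apply h3; linear_combination hw
  have hw0 : w ≠ 0 := by
    rintro rfl; simp at hw
  rcases P with _ | ⟨x, y, h⟩
  · show om h6 w hw (om h6 w hw 0) + om h6 w hw 0 + 0 = 0
    simp
  · have he := eqn.1 h.1
    have n1 : (Wc B).Nonsingular (w * x) y := nons h6 (by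
      linear_combination he - x ^ 3 * (w3 hw))
    have n2 : (Wc B).Nonsingular (w * (w * x)) y := nons h6 (by
      have := w3 hw
      linear_combination he - x ^ 3 * (w ^ 3 + 1) * this)
    rw [om_some h6 w hw h n1, om_some h6 w hw n1 n2]
    have n3 : (Wc B).Nonsingular x (-y) := nons h6 (by rw [neg_sq]; exact he)
    by_cases hx : x = 0
    · subst hx
      have hy : 2 * y ≠ 0 := by
        intro h'
        rcases mul_eq_zero.1 h' with h' | h'
        · exact h2 h'
        · subst h'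
          apply hB
          linear_combination -he
      have e1 : (Point.some (w * (w * 0)) y n2 : Pt B) = Point.some 0 y h := by
        rw [Point.some.injEq]; exact ⟨by ring, rfl⟩
      have e2 : (Point.some (w * 0) y n1 : Pt B) = Point.some 0 y h := by
        rw [Point.some.injEq]; exact ⟨by ring, rfl⟩
      rw [e1, e2, add_tan (s := 0) h hy (by ring) n3 (by ring) (by ring)]
      exact add_opp n3 h rfl rfl
    · have hne : w * (w * x) ≠ w * x := by
        intro h'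
        have h'' := mul_left_cancel₀ hw0 h'
        exact hw1 (mul_right_cancel₀ hx (by rw [h'', one_mul]))
      rw [add_chord (s := 0) n2 n1 hne (by ring) n3
        (by linear_combination x * hw) (by ring)]
      exact add_opp n3 h rfl rfl

/-- the endomorphism `a + b ω` -/
def en (h6 : (6 : L) * B ≠ 0) (w : L) (hw : w ^ 2 + w + 1 = 0) (a b : ℤ) : Pt B →+ Pt B :=
  a • AddMonoidHom.id (Pt B) + b • om h6 w hw

theorem en_apply (h6 : (6 : L) * B ≠ 0) (w : L) (hw : w ^ 2 + w + 1 = 0) (a b : ℤ) (P : Pt B) :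
    en h6 w hw a b P = a • P + b • om h6 w hw P := rfl

end Vale.Agent.P022.CM
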