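import Vale.Agent.P022.H420.CM1
import Vale.Agent.P022.H20.GalDef

/-!
P022, explicit reciprocity for `K = ℚ(√-3)`: literals of the blocks.
-/

open WeierstrassCurve WeierstrassCurve.Affine NumberField Polynomial

noncomputable section

namespace Vale.Agent.P022.CM

/-- [TOR2] the `2^n`-torsion is free of rank one over `ℤ[ω]/2^n` -/
def TORStmt : Prop := ∀ (L : Type) [Field L] [DecidableEq L] [IsAlgClosed L] (B : L)
  (h6 : (6 : L) * B ≠ 0) (w : L) (hw : w ^ 2 + w + 1 = 0), ∃ P : ℕ → Pt B, P 0 = 0 ∧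
    (∀ n, (2 : ℕ) • P (n + 1) = P n) ∧
    (∀ (n : ℕ) (Q : Pt B), (2 ^ n : ℕ) • Q = 0 → ∃ a b : ℤ, Q = en h6 w hw a b (P n)) ∧
    ∀ (n : ℕ) (a b : ℤ), en h6 w hw a b (P n) = 0 → (2 ^ n : ℤ) ∣ a ∧ (2 ^ n : ℤ) ∣ b

/-- [RED] reduction of the `2^∞`-torsion: an injective homomorphism -/
def REDStmt : Prop := ∀ (L F : Type) [Field L] [Field F] [DecidableEq L] [DecidableEq F]
  (π : 𝓞 L →+* F) (b : ℤ) (_ : (6 : L) * (b : L) ≠ 0) (_ : (6 : F) * (b : F) ≠ 0),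
  (∀ (n : ℕ) (x y : L) (h : (Wc (b : L)).Nonsingular x y),
    (2 ^ n : ℕ) • (Point.some x y h : Pt (b : L)) = 0 → IsIntegral ℤ x ∧ IsIntegral ℤ y) ∧
  ∃ R : Pt (b : L) → Pt (b : F), R 0 = 0 ∧
    (∀ (x y : 𝓞 L) (h : (Wc (b : L)).Nonsingular (x : L) (y : L))
      (h' : (Wc (b : F)).Nonsingular (π x) (π y)),
      R (Point.some (x : L) (y : L) h) = Point.some (π x) (π y) h') ∧
    (∀ (n : ℕ) (P Q : Pt (b : L)), (2 ^ n : ℕ) • P = 0 → (2 ^ n : ℕ) • Q = 0 →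
      R (P + Q) = R P + R Q) ∧
    ∀ (n : ℕ) (P Q : Pt (b : L)), (2 ^ n : ℕ) • P = 0 → (2 ^ n : ℕ) • Q = 0 → R P = R Q → P = Q

/-- the action of a field automorphism of `ℚ̄` on the points of `y² = x³ + b` -/
def gact (b : ℤ) (h6 : (6 : Qb) * (b : Qb) ≠ 0) [DecidableEq Qb] (g : GQ) :
    Pt (b : Qb) →+ Pt (b : Qb) :=
  mp (g : Qb →+* Qb) (by simp) h6

/-- [CHAR] the character of `G_K` on the `2^∞`-torsion, with values in `E` -/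
def CHARStmt : Prop := ∀ [DecidableEq Qb] (K : Type) [Field K] [NumberField K] (ζ : K)
  (_ : ζ ^ 2 + ζ + 1 = 0) (_ : ∀ α : 𝓞 K, ∃ a b : ℤ, (α : K) = a + b * ζ)
  (E : Type) [NontriviallyNormedField E] [NormedAlgebra ℚ_[2] E] [IsUltrametricDist E]
  [FiniteDimensional ℚ_[2] E] (ι : K →+* E) (j : K →+* Qb) (b : ℤ)
  (h6 : (6 : Qb) * (b : Qb) ≠ 0) (hw : (j ζ) ^ 2 + j ζ + 1 = 0),
  ∃ Φ : GK j →* Eˣ, Continuous Φ ∧ ∀ (g : GK j) (n : ℕ), ∃ x y : ℤ,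
    ‖(Φ g : E) - ι (x + y * ζ)‖ ≤ ‖(2 : E)‖ ^ n ∧
    ∀ Q : Pt (b : Qb), (2 ^ n : ℕ) • Q = 0 → gact b h6 g Q = en h6 (j ζ) hw x y Q

/-- [FROB] over an algebraically closed field of characteristic `p ≥ 5`: the Frobenius map
`(x, y) ↦ (x^q, y^q)` is an element of `ℤ[ω]`, of norm `q`, zero in `F` -/
def FROBStmt : Prop := ∀ (F : Type) [Field F] [DecidableEq F] [IsAlgClosed F] (B : F)
  (h6 : (6 : F) * B ≠ 0) (w : F) (hw : w ^ 2 + w + 1 = 0) (σ : F →+* F) (q : ℕ) (_ : 2 ≤ q)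
  (_ : ∀ x, σ x = x ^ q) (_ : σ w = w) (hB : σ B = B), ∃ a b : ℤ,
    a ^ 2 - a * b + b ^ 2 = q ∧ (a : F) + b * w = 0 ∧
    ∀ P : Pt B, mp σ hB h6 P = en h6 w hw a b P

end Vale.Agent.P022.CM
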