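import Vale.Agent.P022.H420.CM2

/-!
P022, explicit reciprocity for `K = ℚ(√-3)`: [DEG] `x(βP) = U(x)/V(x)`, degree `N β`.
-/

open WeierstrassCurve WeierstrassCurve.Affine Polynomial

noncomputable section

namespace Vale.Agent.P022.CM

variable {L : Type*} [Field L] [DecidableEq L] {B : L}

/-- [ASUB] `x(P+Q)`, `x(P-Q)` in terms of `x(P)`, `x(Q)` -/
theorem asub (h6 : (6 : L) * B ≠ 0) (P Q : Pt B) : ∃ l : L, l ≠ 0 ∧
    (P.xRep 0 * Q.xRep 0) ^ 2 - 4 * B * (P.xRep 0 * Q.xRep 1 + P.xRep 1 * Q.xRep 0) *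
      (P.xRep 1 * Q.xRep 1) = l * ((P + Q).xRep 0 * (P - Q).xRep 0) ∧
    2 * (P.xRep 0 * Q.xRep 1 + P.xRep 1 * Q.xRep 0) * (P.xRep 0 * Q.xRep 0) +
      4 * B * (P.xRep 1 * Q.xRep 1) ^ 2 =
      l * ((P + Q).xRep 0 * (P - Q).xRep 1 + (P + Q).xRep 1 * (P - Q).xRep 0) ∧
    (P.xRep 0 * Q.xRep 1 + P.xRep 1 * Q.xRep 0) ^ 2 -
      4 * (P.xRep 0 * Q.xRep 0) * (P.xRep 1 * Q.xRep 1) =
      l * ((P + Q).xRep 1 * (P - Q).xRep 1) := by
  have h3 : (3 : L) ≠ 0 := by
    intro h3; apply h6; linear_combination 2 * B * h3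
  have h2 : (2 : L) ≠ 0 := by
    intro h2; apply h6; linear_combination 3 * B * h2
  have hB : B ≠ 0 := right_ne_zero_of_mul h6
  -- doubling
  have dbl : ∀ {x y : L} (h : (Wc B).Nonsingular x y), ∃ l : L, l ≠ 0 ∧
      (x * x) ^ 2 - 4 * B * (x * 1 + 1 * x) * (1 * 1) =
        l * ((Point.some x y h + Point.some x y h : Pt B).xRep 0 * 1) ∧
      2 * (x * 1 + 1 * x) * (x * x) + 4 * B * (1 * 1) ^ 2 =
        l * ((Point.some x y h + Point.some x y h : Pt B).xRep 0 * 0 +
          (Point.some x y h + Point.some x y h : Pt B).xRep 1 * 1) ∧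
      (x * 1 + 1 * x) ^ 2 - 4 * (x * x) * (1 * 1) =
        l * ((Point.some x y h + Point.some x y h : Pt B).xRep 1 * 0) := by
    intro x y h
    have he := eqn.1 h.1
    by_cases hy : y = 0
    · subst hy
      have hx : x ≠ 0 := by
        rintro rfl
        apply hB
        linear_combination -he
      have h0 : (Point.some x 0 h + Point.some x 0 h : Pt B) = 0 :=
        add_opp h h rfl (by simp)
      rw [h0]
      refine ⟨-(3 ^ 2 * B * x), by simp [h3, hB, hx], ?_, ?_, ?_⟩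
      · simp only [Point.xRep_zero, Matrix.cons_val_zero]
        linear_combination -x * he
      · simp only [Point.xRep_zero, Matrix.cons_val_zero, Matrix.cons_val_one]
        linear_combination -4 * he
      · simp only [Point.xRep_zero, Matrix.cons_val_one]
        ring
    · have hy2 : 2 * y ≠ 0 := mul_ne_zero h2 hy
      obtain ⟨s, hs⟩ : ∃ s, s * (2 * y) = 3 * x ^ 2 := ⟨3 * x ^ 2 / (2 * y), by
        rw [div_mul_cancel₀ _ hy2]⟩
      rw [add_tan h hy2 hs (nons_tan h hy2 hs) rfl rfl]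
      refine ⟨(2 * y) ^ 2, pow_ne_zero _ hy2, ?_, ?_, ?_⟩
      · simp only [Point.xRep_some, Matrix.cons_val_zero]
        linear_combination (-(s * (2 * y)) - 3 * x ^ 2) * hs + 8 * x * he
      · simp only [Point.xRep_some, Matrix.cons_val_zero, Matrix.cons_val_one]
        linear_combination -4 * he
      · simp only [Point.xRep_some, Matrix.cons_val_one]
        ring
  rcases P with _ | ⟨x₁, y₁, h₁⟩
  · rcases Q with _ | ⟨x₂, y₂, h₂⟩
    · refine ⟨1, one_ne_zero, ?_, ?_, ?_⟩ <;>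
      · rw [← Point.zero_def, sub_self, add_zero]
        simp
    · refine ⟨1, one_ne_zero, ?_, ?_, ?_⟩ <;>
      · rw [← Point.zero_def, zero_sub, zero_add]
        simp
        try ring
  · rcases Q with _ | ⟨x₂, y₂, h₂⟩
    · refine ⟨1, one_ne_zero, ?_, ?_, ?_⟩ <;>
      · rw [← Point.zero_def, sub_zero, add_zero]
        simp
        try ring
    · have e₁ := eqn.1 h₁.1
      have e₂ := eqn.1 h₂.1
      rcases add_cases h₁ h₂ with hx | ⟨hx, hy⟩ | ⟨hx, hy, hy2⟩
      · have hd : x₁ - x₂ ≠ 0 := sub_ne_zero.2 hx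
        have h₂' : (Wc B).Nonsingular x₂ (-y₂) := nons h6 (by rw [neg_sq]; exact e₂)
        obtain ⟨s, hs⟩ : ∃ s, s * (x₁ - x₂) = y₁ - y₂ := ⟨(y₁ - y₂) / (x₁ - x₂), by field_simp⟩
        obtain ⟨t, ht⟩ : ∃ t, t * (x₁ - x₂) = y₁ - -y₂ :=
          ⟨(y₁ - -y₂) / (x₁ - x₂), by field_simp⟩
        have hsub : (Point.some x₁ y₁ h₁ - Point.some x₂ y₂ h₂ : Pt B) =
            Point.some x₁ y₁ h₁ + Point.some x₂ (-y₂) h₂' := by
          rw [sub_eq_add_neg, neg_some']
        rw [hsub, add_chord h₁ h₂ hx hs (nons_chord h₁ h₂ hx hs) rfl rfl,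
          add_chord h₁ h₂' hx ht (nons_chord h₁ h₂' hx ht) rfl rfl]
        refine ⟨(x₁ - x₂) ^ 2, pow_ne_zero _ hd, ?_, ?_, ?_⟩
        · simp only [Point.xRep_some, Matrix.cons_val_zero, Matrix.cons_val_one]
          have hs' : s = (y₁ - y₂) / (x₁ - x₂) := by rw [eq_div_iff hd, hs]
          have ht' : t = (y₁ + y₂) / (x₁ - x₂) := by rw [eq_div_iff hd, ht]; ring
          have e₁' : B = y₁ ^ 2 - x₁ ^ 3 := by linear_combination -e₁
          have e₂' : y₂ ^ 2 = x₂ ^ 3 + (y₁ ^ 2 - x₁ ^ 3) := by rw [← e₁']; exact e₂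
          rw [hs', ht', e₁']
          field_simp
          have : ∃ z, z = y₂ ^ 2 := ⟨_, rfl⟩
          linear_combination (-(y₂ ^ 2) + 2 * y₁ ^ 2 + (x₁ + x₂) * (x₁ - x₂) ^ 2 * 2
            - (x₂ ^ 3 + (y₁ ^ 2 - x₁ ^ 3))) * e₂'
        · simp only [Point.xRep_some, Matrix.cons_val_zero, Matrix.cons_val_one]
          linear_combination (-(s * (x₁ - x₂)) - (y₁ - y₂)) * hs +
            (-(t * (x₁ - x₂)) - (y₁ - -y₂)) * ht - 2 * e₁ - 2 * e₂
        · simp only [Point.xRep_some, Matrix.cons_val_zero, Matrix.cons_val_one]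
          ring
      · subst hx
        have hQ : (Point.some x₁ y₂ h₂ : Pt B) = -Point.some x₁ y₁ h₁ := by
          rw [neg_some', Point.some.injEq]
          exact ⟨rfl, by rw [hy, neg_neg]⟩
        rw [hQ, add_neg_cancel, sub_neg_eq_add, Point.xRep_neg]
        obtain ⟨l, hl, a1, a2, a3⟩ := dbl h₁
        refine ⟨l, hl, ?_, ?_, ?_⟩
        · simp only [Point.xRep_some, Point.xRep_zero, Matrix.cons_val_zero, Matrix.cons_val_one]
          linear_combination a1
        · simp only [Point.xRep_some, Point.xRep_zero, Matrix.cons_val_zero, Matrix.cons_val_one]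
          linear_combination a2
        · simp only [Point.xRep_some, Point.xRep_zero, Matrix.cons_val_zero, Matrix.cons_val_one]
          linear_combination a3
      · subst hx
        subst hy
        rw [sub_self]
        obtain ⟨l, hl, a1, a2, a3⟩ := dbl h₁
        refine ⟨l, hl, ?_, ?_, ?_⟩
        · simp only [Point.xRep_some, Point.xRep_zero, Matrix.cons_val_zero, Matrix.cons_val_one]
          linear_combination a1
        · simp only [Point.xRep_some, Point.xRep_zero, Matrix.cons_val_zero, Matrix.cons_val_one]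
          linear_combination a2
        · simp only [Point.xRep_some, Point.xRep_zero, Matrix.cons_val_zero, Matrix.cons_val_one]
          linear_combination a3

end Vale.Agent.P022.CM
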