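import Vale.Agent.P022.H420.CM3

/-!
P022, explicit reciprocity for `K = ℚ(√-3)`: [DEG] `x(βP) = U(x)/V(x)`, degree `N β`.
-/

open WeierstrassCurve WeierstrassCurve.Affine Polynomial

noncomputable section

namespace Vale.Agent.P022.CM

variable {F : Type*} [Field F] [DecidableEq F] {B : F}

/-- `x(θ P) = U(x)/V(x)`, `U` monic of degree `m`, `V` of degree `< m`, the coefficient of
`X^(m-1)` in `V` is `c` -/
def Rep (θ : Pt B →+ Pt B) (m : ℕ) (c : F) : Prop := ∃ U V : F[X], U.Monic ∧ U.natDegree = m ∧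
  V.degree < m ∧ (X * V).coeff m = c ∧ (∀ x, ¬ (U.eval x = 0 ∧ V.eval x = 0)) ∧
  ∀ (x y : F) (h : (Wc B).Nonsingular x y),
    (θ (Point.some x y h)).xRep 0 * V.eval x = (θ (Point.some x y h)).xRep 1 * U.eval x

theorem Rep.neg {θ : Pt B →+ Pt B} {m : ℕ} {c : F} (h : Rep θ m c) : Rep (-θ) m c := by
  obtain ⟨U, V, h1, h2, h3, h4, h5, h6⟩ := h
  refine ⟨U, V, h1, h2, h3, h4, h5, fun x y h => ?_⟩
  rw [AddMonoidHom.neg_apply, Point.xRep_neg]
  exact h6 x y h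

theorem rep_zero : Rep (0 : Pt B →+ Pt B) 0 0 := by
  refine ⟨1, 0, monic_one, natDegree_one, ?_, ?_, ?_, ?_⟩
  · rw [degree_zero]; exact WithBot.bot_lt_coe _
  · simp
  · intro x; simp
  · intro x y h; simp

/-- two vectors with the same symmetric product with a nonzero vector -/
theorem sym_cancel {a₀ a₁ a₀' a₁' b₀ b₁ l : F} (hb : ¬ (b₀ = 0 ∧ b₁ = 0))
    (h0 : a₀ * b₀ = l * (a₀' * b₀)) (h1 : a₀ * b₁ + a₁ * b₀ = l * (a₀' * b₁ + a₁' * b₀))
    (h2 : a₁ * b₁ = l * (a₁' * b₁)) : a₀ = l * a₀' ∧ a₁ = l * a₁' := by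
  have k0 : (a₀ - l * a₀') * b₀ = 0 := by linear_combination h0
  have k1 : (a₀ - l * a₀') * b₁ + (a₁ - l * a₁') * b₀ = 0 := by linear_combination h1
  have k2 : (a₁ - l * a₁') * b₁ = 0 := by linear_combination h2
  by_cases hb0 : b₀ = 0
  · have hb1 : b₁ ≠ 0 := fun h => hb ⟨hb0, h⟩
    have e1 : a₁ - l * a₁' = 0 := by
      rcases mul_eq_zero.1 k2 with h | h
      · exact h
      · exact absurd h hb1
    rw [e1, zero_mul, add_zero] at k1
    have e0 : a₀ - l * a₀' = 0 := by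
      rcases mul_eq_zero.1 k1 with h | h
      · exact h
      · exact absurd h hb1
    exact ⟨sub_eq_zero.1 e0, sub_eq_zero.1 e1⟩
  · have e0 : a₀ - l * a₀' = 0 := by
      rcases mul_eq_zero.1 k0 with h | h
      · exact h
      · exact absurd h hb0
    rw [e0, zero_mul, zero_add] at k1
    have e1 : a₁ - l * a₁' = 0 := by
      rcases mul_eq_zero.1 k1 with h | h
      · exact h
      · exact absurd h hb0
    exact ⟨sub_eq_zero.1 e0, sub_eq_zero.1 e1⟩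

omit [DecidableEq F] in
theorem xRep_cases (P : Pt B) : P.xRep 1 = 1 ∨ (P.xRep 0 = 1 ∧ P.xRep 1 = 0) := by
  rcases P with _ | ⟨x, y, h⟩
  · right; exact ⟨rfl, rfl⟩
  · left; rfl

omit [DecidableEq F] in
theorem xRep_ne (P : Pt B) : ¬ (P.xRep 0 = 0 ∧ P.xRep 1 = 0) := by
  rcases xRep_cases P with h | ⟨h, h'⟩
  · rintro ⟨-, h'⟩; rw [h] at h'; exact one_ne_zero h'
  · rintro ⟨h'', -⟩; rw [h] at h''; exact one_ne_zero h''

omit [DecidableEq F] in
/-- `(u, v)` is a nonzero multiple of `xRep` -/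
theorem prop_of {P : Pt B} {u v : F} (huv : ¬ (u = 0 ∧ v = 0))
    (h : P.xRep 0 * v = P.xRep 1 * u) : ∃ l : F, l ≠ 0 ∧ u = l * P.xRep 0 ∧ v = l * P.xRep 1 := by
  rcases xRep_cases P with h1 | ⟨h0, h1⟩
  · rw [h1, one_mul] at h
    refine ⟨v, ?_, by rw [← h, mul_comm], by rw [h1, mul_one]⟩
    rintro rfl
    exact huv ⟨by rw [← h, mul_zero], rfl⟩
  · rw [h0, h1, one_mul, zero_mul] at h
    refine ⟨u, ?_, by rw [h0, mul_one], by rw [h, h1, mul_zero]⟩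
    rintro rfl
    exact huv ⟨rfl, h⟩

omit [DecidableEq F] in
theorem dlt {p q : F[X]} {a b : ℕ} (hp : p.degree ≤ a) (hq : q.degree < b) :
    (p * q).degree < ((a + b : ℕ) : WithBot ℕ) := by
  by_cases h0 : p * q = 0
  · rw [h0, degree_zero]; exact WithBot.bot_lt_coe _
  · have hp0 : p ≠ 0 := left_ne_zero_of_mul h0
    have hq0 : q ≠ 0 := right_ne_zero_of_mul h0
    rw [← natDegree_lt_iff_degree_lt h0, natDegree_mul hp0 hq0]
    have h1 := natDegree_le_of_degree_le hp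
    have h2 := (natDegree_lt_iff_degree_lt hq0).2 hq
    omega

omit [DecidableEq F] in
theorem dCm (a : F) (p : F[X]) : (C a * p).degree ≤ p.degree := by
  rw [← smul_eq_C_mul]; exact degree_smul_le _ _

omit [DecidableEq F] in
theorem nX {V : F[X]} {m : ℕ} (h : V.degree < m) : (X * V).natDegree ≤ m := by
  by_cases h0 : V = 0
  · simp [h0]
  · rw [natDegree_mul X_ne_zero h0, natDegree_X]
    have := (natDegree_lt_iff_degree_lt h0).2 h
    omega

/-- the recursion -/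
theorem Rep.rec' [IsAlgClosed F] (h6 : (6 : F) * B ≠ 0) {θ₁ θ₂ : Pt B →+ Pt B}
    {m₁ m₂ m₀ m₃ : ℕ} {c₁ c₂ c₀ : F} (H₁ : Rep θ₁ m₁ c₁) (H₂ : Rep θ₂ m₂ c₂)
    (H₀ : Rep (θ₁ - θ₂) m₀ c₀) (hm : m₀ + m₃ = 2 * (m₁ + m₂)) :
    Rep (θ₁ + θ₂) m₃ (2 * c₁ + 2 * c₂ - c₀) := by
  obtain ⟨U₁, V₁, u1, n1, v1, k1, p1, r1⟩ := H₁
  obtain ⟨U₂, V₂, u2, n2, v2, k2, p2, r2⟩ := H₂
  obtain ⟨U₀, V₀, u0, n0, v0, k0, p0, r0⟩ := H₀
  have hinf : Infinite F := IsAlgClosed.instInfinite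
  set s : F[X] := U₁ * U₂ with hs
  set t : F[X] := U₁ * V₂ + V₁ * U₂ with ht
  set u : F[X] := V₁ * V₂ with hu
  set q0 : F[X] := s ^ 2 - C (4 * B) * t * u with hq0
  set q1 : F[X] := C 2 * t * s + C (4 * B) * u ^ 2 with hq1
  set q2 : F[X] := t ^ 2 - C 4 * s * u with hq2
  -- the pointwise statement
  have key : ∀ x y (h : (Wc B).Nonsingular x y), ∃ l : F, l ≠ 0 ∧
      q0.eval x = l * (((θ₁ + θ₂) (Point.some x y h)).xRep 0 * U₀.eval x) ∧
      q1.eval x = l * (((θ₁ + θ₂) (Point.some x y h)).xRep 0 * V₀.eval x +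
        ((θ₁ + θ₂) (Point.some x y h)).xRep 1 * U₀.eval x) ∧
      q2.eval x = l * (((θ₁ + θ₂) (Point.some x y h)).xRep 1 * V₀.eval x) := by
    intro x y h
    obtain ⟨l₁, hl₁, a₁, b₁⟩ := prop_of (p1 x) (r1 x y h)
    obtain ⟨l₂, hl₂, a₂, b₂⟩ := prop_of (p2 x) (r2 x y h)
    obtain ⟨l₀, hl₀, a₀, b₀⟩ := prop_of (p0 x) (r0 x y h)
    obtain ⟨l, hl, e0, e1, e2⟩ := asub h6 (θ₁ (Point.some x y h)) (θ₂ (Point.some x y h))
    rw [AddMonoidHom.sub_apply] at a₀ b₀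
    refine ⟨(l₁ * l₂) ^ 2 * l / l₀, div_ne_zero (mul_ne_zero (pow_ne_zero _
      (mul_ne_zero hl₁ hl₂)) hl) hl₀, ?_, ?_, ?_⟩
    · rw [AddMonoidHom.add_apply, hq0, hs, ht, hu]
      simp only [eval_sub, eval_mul, eval_pow, eval_add, eval_C, a₁, b₁, a₂, b₂, a₀]
      field_simp
      linear_combination e0
    · rw [AddMonoidHom.add_apply, hq1, hs, ht, hu]
      simp only [eval_mul, eval_pow, eval_add, eval_C, a₁, b₁, a₂, b₂, a₀, b₀]
      field_simp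
      linear_combination e1
    · rw [AddMonoidHom.add_apply, hq2, hs, ht, hu]
      simp only [eval_sub, eval_mul, eval_pow, eval_add, eval_C, a₁, b₁, a₂, b₂, b₀]
      field_simp
      linear_combination e2
  have hpt : ∀ x : F, ∃ y, (Wc B).Nonsingular x y := by
    intro x
    obtain ⟨y, hy⟩ := IsAlgClosed.exists_pow_nat_eq (x ^ 3 + B) (n := 2) (by norm_num)
    exact ⟨y, nons h6 hy⟩
  -- the relation
  have rel : q2 * U₀ ^ 2 - q1 * U₀ * V₀ + q0 * V₀ ^ 2 = 0 := by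
    apply Polynomial.funext
    intro x
    obtain ⟨y, h⟩ := hpt x
    obtain ⟨l, -, e0, e1, e2⟩ := key x y h
    simp only [eval_sub, eval_mul, eval_pow, eval_add, e0, e1, e2, eval_zero]
    ring
  have cop : IsCoprime U₀ V₀ := by
    rw [isCoprime_iff_aeval_ne_zero_of_isAlgClosed (k := F) (K := F)]
    intro a
    by_contra hcon
    push Not at hcon
    simp only [coe_aeval_eq_eval] at hcon
    exact p0 a hcon
  have hU0 : U₀ ≠ 0 := u0.ne_zero
  obtain ⟨U₃, hU₃⟩ : U₀ ∣ q0 := by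
    have h1 : U₀ ∣ q0 * V₀ ^ 2 := ⟨q1 * V₀ - q2 * U₀, by linear_combination rel⟩
    exact (IsCoprime.pow_right cop).dvd_of_dvd_mul_right h1
  have rel2 : q2 * U₀ = V₀ * (q1 - U₃ * V₀) := by
    apply mul_left_cancel₀ hU0
    linear_combination rel - V₀ ^ 2 * hU₃
  obtain ⟨V₃, hV₃⟩ : U₀ ∣ q1 - U₃ * V₀ := by
    have h1 : U₀ ∣ V₀ * (q1 - U₃ * V₀) := ⟨q2, by rw [← rel2]; ring⟩
    exact cop.dvd_of_dvd_mul_left h1
  have rel3 : q2 = V₀ * V₃ := by
    apply mul_right_cancel₀ hU0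
    rw [rel2, hV₃]; ring
  have rel1 : q1 = U₃ * V₀ + U₀ * V₃ := by linear_combination hV₃
  -- degrees
  have hsm : s.Monic := u1.mul u2
  have ns : s.natDegree = m₁ + m₂ := by rw [hs, u1.natDegree_mul u2, n1, n2]
  have ds : s.degree ≤ ((m₁ + m₂ : ℕ) : WithBot ℕ) := by
    rw [degree_eq_natDegree hsm.ne_zero, ns]
  have dU₁ : U₁.degree ≤ (m₁ : WithBot ℕ) := by rw [degree_eq_natDegree u1.ne_zero, n1]
  have dU₂ : U₂.degree ≤ (m₂ : WithBot ℕ) := by rw [degree_eq_natDegree u2.ne_zero, n2]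
  have dt : t.degree < ((m₁ + m₂ : ℕ) : WithBot ℕ) := by
    refine lt_of_le_of_lt (degree_add_le _ _) (max_lt (dlt dU₁ v2) ?_)
    rw [mul_comm, add_comm]
    exact dlt dU₂ v1
  have du : u.degree < ((m₁ + m₂ : ℕ) : WithBot ℕ) := dlt v1.le v2
  have dBt : (C (4 * B) * t).degree ≤ ((m₁ + m₂ : ℕ) : WithBot ℕ) :=
    (dCm _ _).trans dt.le
  have dBtu : (C (4 * B) * t * u).degree < ((m₁ + m₂ + (m₁ + m₂) : ℕ) : WithBot ℕ) :=
    dlt dBt du
  have ns2 : (s ^ 2).natDegree = m₁ + m₂ + (m₁ + m₂) := by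
    rw [hsm.natDegree_pow, ns]; ring
  have ds2 : (s ^ 2).degree = ((m₁ + m₂ + (m₁ + m₂) : ℕ) : WithBot ℕ) := by
    rw [degree_eq_natDegree (hsm.pow 2).ne_zero, ns2]
  have q0m : q0.Monic := (hsm.pow 2).sub_of_left (by rw [ds2]; exact dBtu)
  have nq0 : q0.natDegree = m₁ + m₂ + (m₁ + m₂) := by
    have : q0.degree = ((m₁ + m₂ + (m₁ + m₂) : ℕ) : WithBot ℕ) := by
      rw [hq0, degree_sub_eq_left_of_degree_lt (by rw [ds2]; exact dBtu), ds2]
    exact natDegree_eq_of_degree_eq_some this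
  have U₃m : U₃.Monic := u0.of_mul_monic_left (by rw [← hU₃]; exact q0m)
  have nU₃ : U₃.natDegree = m₃ := by
    have := congrArg natDegree hU₃
    rw [nq0, u0.natDegree_mul U₃m, n0] at this
    omega
  have dU₃ : U₃.degree ≤ (m₃ : WithBot ℕ) := by rw [degree_eq_natDegree U₃m.ne_zero, nU₃]
  have dq1 : q1.degree < ((m₁ + m₂ + (m₁ + m₂) : ℕ) : WithBot ℕ) := by
    refine lt_of_le_of_lt (degree_add_le _ _) (max_lt ?_ ?_)
    · rw [mul_comm]
      exact dlt ds (lt_of_le_of_lt (dCm _ _) dt)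
    · rw [pow_two, ← mul_assoc]
      exact dlt ((dCm _ _).trans du.le) du
  have dV₃ : V₃.degree < (m₃ : WithBot ℕ) := by
    by_cases hV0 : V₃ = 0
    · rw [hV0, degree_zero]; exact WithBot.bot_lt_coe _
    · have h1 : (U₀ * V₃).degree < ((m₁ + m₂ + (m₁ + m₂) : ℕ) : WithBot ℕ) := by
        rw [← hV₃]
        refine lt_of_le_of_lt (degree_sub_le _ _) (max_lt dq1 ?_)
        have := dlt dU₃ v0
        rwa [show m₃ + m₀ = m₁ + m₂ + (m₁ + m₂) by omega] at this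
      have h0 : U₀ * V₃ ≠ 0 := mul_ne_zero hU0 hV0
      have h2 := (natDegree_lt_iff_degree_lt h0).2 h1
      rw [natDegree_mul hU0 hV0, n0] at h2
      rw [← natDegree_lt_iff_degree_lt hV0]
      omega
  have cV₃ : (X * V₃).coeff m₃ = 2 * c₁ + 2 * c₂ - c₀ := by
    have e : X * q1 = U₃ * (X * V₀) + U₀ * (X * V₃) := by rw [rel1]; ring
    have e1 : X * q1 = C 2 * ((X * t) * s) + C (4 * B) * ((X * u) * u) := by rw [hq1]; ring
    have ct : (X * t).coeff (m₁ + m₂) = c₁ + c₂ := by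
      have : X * t = U₁ * (X * V₂) + (X * V₁) * U₂ := by rw [ht]; ring
      rw [this, coeff_add, coeff_mul_add_eq_of_natDegree_le n1.le (nX v2),
        coeff_mul_add_eq_of_natDegree_le (nX v1) n2.le, k1, k2]
      have a1 : U₁.coeff m₁ = 1 := by rw [← n1]; exact u1
      have a2 : U₂.coeff m₂ = 1 := by rw [← n2]; exact u2
      rw [a1, a2]; ring
    have cs : s.coeff (m₁ + m₂) = 1 := by rw [← ns]; exact hsm
    have c2 : ((X * u) * u).coeff (m₁ + m₂ + (m₁ + m₂)) = 0 := by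
      apply coeff_eq_zero_of_degree_lt
      refine dlt ?_ du
      exact degree_le_of_natDegree_le (nX du)
    have l1 : (X * q1).coeff (m₁ + m₂ + (m₁ + m₂)) = 2 * (c₁ + c₂) := by
      rw [e1, coeff_add, coeff_C_mul, coeff_C_mul, c2,
        coeff_mul_add_eq_of_natDegree_le (nX dt) ns.le, ct, cs]
      ring
    have l2 : (X * q1).coeff (m₁ + m₂ + (m₁ + m₂)) = c₀ + (X * V₃).coeff m₃ := by
      have b3 : U₃.coeff m₃ = 1 := by rw [← nU₃]; exact U₃m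
      have b0 : U₀.coeff m₀ = 1 := by rw [← n0]; exact u0
      have f1 : (U₃ * (X * V₀)).coeff (m₁ + m₂ + (m₁ + m₂)) = c₀ := by
        rw [show m₁ + m₂ + (m₁ + m₂) = m₃ + m₀ by omega,
          coeff_mul_add_eq_of_natDegree_le nU₃.le (nX v0), b3, k0, one_mul]
      have f2 : (U₀ * (X * V₃)).coeff (m₁ + m₂ + (m₁ + m₂)) = (X * V₃).coeff m₃ := by
        rw [show m₁ + m₂ + (m₁ + m₂) = m₀ + m₃ by omega,
          coeff_mul_add_eq_of_natDegree_le n0.le (nX dV₃), b0, one_mul]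
      rw [e, coeff_add, f1, f2]
    linear_combination l1 - l2
  -- the pointwise statement for the sum
  have fin : ∀ x y (h : (Wc B).Nonsingular x y), ∃ l : F, l ≠ 0 ∧
      U₃.eval x = l * ((θ₁ + θ₂) (Point.some x y h)).xRep 0 ∧
      V₃.eval x = l * ((θ₁ + θ₂) (Point.some x y h)).xRep 1 := by
    intro x y h
    obtain ⟨l, hl, e0, e1, e2⟩ := key x y h
    have g0 : U₃.eval x * U₀.eval x = l * (((θ₁ + θ₂) (Point.some x y h)).xRep 0 * U₀.eval x) := by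
      rw [← e0, hU₃, eval_mul]; ring
    have g1 : U₃.eval x * V₀.eval x + V₃.eval x * U₀.eval x =
        l * (((θ₁ + θ₂) (Point.some x y h)).xRep 0 * V₀.eval x +
        ((θ₁ + θ₂) (Point.some x y h)).xRep 1 * U₀.eval x) := by
      rw [← e1, rel1, eval_add, eval_mul, eval_mul]; ring
    have g2 : V₃.eval x * V₀.eval x =
        l * (((θ₁ + θ₂) (Point.some x y h)).xRep 1 * V₀.eval x) := by
      rw [← e2, rel3, eval_mul]; ring
    obtain ⟨r0', r1'⟩ := sym_cancel (p0 x) g0 g1 g2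
    exact ⟨l, hl, r0', r1'⟩
  refine ⟨U₃, V₃, U₃m, nU₃, dV₃, cV₃, ?_, ?_⟩
  · rintro x ⟨hx0, hx1⟩
    obtain ⟨y, h⟩ := hpt x
    obtain ⟨l, hl, e0, e1⟩ := fin x y h
    rw [hx0] at e0
    rw [hx1] at e1
    refine xRep_ne ((θ₁ + θ₂) (Point.some x y h)) ⟨?_, ?_⟩
    · exact (mul_eq_zero.1 e0.symm).resolve_left hl
    · exact (mul_eq_zero.1 e1.symm).resolve_left hl
  · intro x y h
    obtain ⟨l, hl, e0, e1⟩ := fin x y h
    rw [e0, e1]; ring

end Vale.Agent.P022.CM
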