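import Vale.Agent.P022.H420.CM4

/-!
P022, explicit reciprocity for `K = ℚ(√-3)`: [DEG] for all `a + b ω`.
-/

open WeierstrassCurve WeierstrassCurve.Affine Polynomial

noncomputable section

namespace Vale.Agent.P022.CM

/-- the norm `a² - ab + b²` is nonnegative -/
theorem Nnn (a b : ℤ) : 0 ≤ a ^ 2 - a * b + b ^ 2 := by
  nlinarith [sq_nonneg (2 * a - b), sq_nonneg b]

section
variable {L : Type*} [Field L] [DecidableEq L] {B : L}

theorem en_add (h6 : (6 : L) * B ≠ 0) (w : L) (hw : w ^ 2 + w + 1 = 0) (a b c d : ℤ) :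
    en h6 w hw (a + c) (b + d) = en h6 w hw a b + en h6 w hw c d := by
  ext1 P
  rw [AddMonoidHom.add_apply, en_apply, en_apply, en_apply]
  module

theorem en_sub (h6 : (6 : L) * B ≠ 0) (w : L) (hw : w ^ 2 + w + 1 = 0) (a b c d : ℤ) :
    en h6 w hw (a - c) (b - d) = en h6 w hw a b - en h6 w hw c d := by
  ext1 P
  rw [AddMonoidHom.sub_apply, en_apply, en_apply, en_apply]
  module

theorem en_neg (h6 : (6 : L) * B ≠ 0) (w : L) (hw : w ^ 2 + w + 1 = 0) (a b : ℤ) :
    en h6 w hw (-a) (-b) = -en h6 w hw a b := by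
  ext1 P
  rw [AddMonoidHom.neg_apply, en_apply, en_apply]
  module

/-- multiplication in `ℤ[ω]` -/
theorem en_mul (h6 : (6 : L) * B ≠ 0) (w : L) (hw : w ^ 2 + w + 1 = 0) (a b c d : ℤ) (P : Pt B) :
    en h6 w hw a b (en h6 w hw c d P) = en h6 w hw (a * c - b * d) (a * d + b * c - b * d) P := by
  have h := om_rel h6 w hw P
  have h' : om h6 w hw (om h6 w hw P) = -(om h6 w hw P) - P := by
    rw [eq_sub_iff_add_eq, eq_neg_iff_add_eq_zero]
    rw [← h]; abel
  simp only [en_apply, map_add, map_zsmul, h']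
  module

end

variable {F : Type*} [Field F] [DecidableEq F] [IsAlgClosed F] {B : F}

/-- two-sided induction with step two -/
theorem ind2 {Q : ℤ → Prop} (h0 : Q 0) (h1 : Q 1) (hu : ∀ n, Q n → Q (n - 1) → Q (n + 1))
    (hd : ∀ n, Q n → Q (n + 1) → Q (n - 1)) (n : ℤ) : Q n := by
  have : ∀ n : ℤ, Q n ∧ Q (n + 1) := by
    intro n
    induction n using Int.induction_on with
    | zero => exact ⟨h0, by simpa using h1⟩
    | succ i ih =>
      refine ⟨ih.2, ?_⟩
      have := hu (i + 1) ih.2 (by simpa using ih.1)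
      exact this
    | pred i ih =>
      refine ⟨?_, by simpa using ih.1⟩
      exact hd _ ih.1 ih.2
  exact (this n).1

/-- the statement for `a + b ω` -/
def SS (h6 : (6 : F) * B ≠ 0) (w : F) (hw : w ^ 2 + w + 1 = 0) (a b : ℤ) : Prop :=
  Rep (en h6 w hw a b) (a ^ 2 - a * b + b ^ 2).toNat (((a : F) + b * w) ^ 2)

theorem SS.rec2 {h6 : (6 : F) * B ≠ 0} {w : F} {hw : w ^ 2 + w + 1 = 0} {a b c d : ℤ}
    (h1 : SS h6 w hw a b) (h2 : SS h6 w hw c d) (h0 : SS h6 w hw (a - c) (b - d)) :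
    SS h6 w hw (a + c) (b + d) := by
  unfold SS at *
  rw [en_sub] at h0
  have key : ((a - c) ^ 2 - (a - c) * (b - d) + (b - d) ^ 2) +
      ((a + c) ^ 2 - (a + c) * (b + d) + (b + d) ^ 2) =
      2 * ((a ^ 2 - a * b + b ^ 2) + (c ^ 2 - c * d + d ^ 2)) := by ring
  have p1 := Nnn a b
  have p2 := Nnn c d
  have p3 := Nnn (a - c) (b - d)
  have p4 := Nnn (a + c) (b + d)
  have := Rep.rec' h6 h1 h2 h0 (m₃ := ((a + c) ^ 2 - (a + c) * (b + d) + (b + d) ^ 2).toNat)
    (by
      generalize (a - c) ^ 2 - (a - c) * (b - d) + (b - d) ^ 2 = t1 at *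
      generalize (a + c) ^ 2 - (a + c) * (b + d) + (b + d) ^ 2 = t2 at *
      generalize a ^ 2 - a * b + b ^ 2 = t3 at *
      generalize c ^ 2 - c * d + d ^ 2 = t4 at *
      omega)
  rw [en_add]
  convert this using 1
  push_cast
  ring

omit [IsAlgClosed F] in
theorem SS.neg {h6 : (6 : F) * B ≠ 0} {w : F} {hw : w ^ 2 + w + 1 = 0} {a b : ℤ}
    (h1 : SS h6 w hw a b) : SS h6 w hw (-a) (-b) := by
  unfold SS at *
  rw [en_neg]
  convert h1.neg using 1
  · congr 1; ring
  · push_cast; ring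

omit [IsAlgClosed F] in
theorem ss00 (h6 : (6 : F) * B ≠ 0) (w : F) (hw : w ^ 2 + w + 1 = 0) : SS h6 w hw 0 0 := by
  unfold SS
  have : en h6 w hw 0 0 = 0 := by unfold en; simp
  rw [this]
  convert rep_zero using 1
  all_goals simp

omit [IsAlgClosed F] in
theorem ss10 (h6 : (6 : F) * B ≠ 0) (w : F) (hw : w ^ 2 + w + 1 = 0) : SS h6 w hw 1 0 := by
  unfold SS
  have : en h6 w hw 1 0 = AddMonoidHom.id (Pt B) := by unfold en; simp
  rw [this]
  refine ⟨X, 1, monic_X, by simp, ?_, ?_, ?_, ?_⟩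
  · rw [degree_one]; exact_mod_cast zero_lt_one
  · simp
  · intro x; simp
  · intro x y h
    simp

omit [IsAlgClosed F] in
theorem ss01 (h6 : (6 : F) * B ≠ 0) (w : F) (hw : w ^ 2 + w + 1 = 0) : SS h6 w hw 0 1 := by
  unfold SS
  have : en h6 w hw 0 1 = om h6 w hw := by unfold en; simp
  rw [this]
  have hw0 : w ≠ 0 := by
    rintro rfl; simp at hw
  refine ⟨X, C (w ^ 2), monic_X, by simp, ?_, ?_, ?_, ?_⟩
  · rw [degree_C (pow_ne_zero 2 hw0)]; exact_mod_cast zero_lt_one
  · have e : ((0 : ℤ) ^ 2 - 0 * 1 + 1 ^ 2).toNat = 0 + 1 := by norm_num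
    rw [e, coeff_X_mul, coeff_C_zero]
    push_cast; ring
  · intro x
    rintro ⟨-, h⟩
    rw [eval_C] at h
    exact pow_ne_zero 2 hw0 h
  · intro x y h
    have n1 : (Wc B).Nonsingular (w * x) y := nons h6 (by
      linear_combination eqn.1 h.1 - x ^ 3 * (w3 hw))
    rw [om_some h6 w hw h n1]
    simp only [Point.xRep_some, Matrix.cons_val_zero, Matrix.cons_val_one, eval_C, eval_X]
    linear_combination x * w3 hw

omit [IsAlgClosed F] in
theorem ss11 (h6 : (6 : F) * B ≠ 0) (w : F) (hw : w ^ 2 + w + 1 = 0) : SS h6 w hw 1 1 := by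
  unfold SS
  have hw0 : w ≠ 0 := by
    rintro rfl; simp at hw
  refine ⟨X, C w, monic_X, by simp, ?_, ?_, ?_, ?_⟩
  · rw [degree_C hw0]; exact_mod_cast zero_lt_one
  · have e : ((1 : ℤ) ^ 2 - 1 * 1 + 1 ^ 2).toNat = 0 + 1 := by norm_num
    rw [e, coeff_X_mul, coeff_C_zero]
    push_cast
    linear_combination -hw
  · intro x
    rintro ⟨-, h⟩
    rw [eval_C] at h
    exact hw0 h
  · intro x y h
    have he := eqn.1 h.1
    have n1 : (Wc B).Nonsingular (w * x) y := nons h6 (by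
      linear_combination he - x ^ 3 * (w3 hw))
    have n2 : (Wc B).Nonsingular (w * (w * x)) y := nons h6 (by
      have := w3 hw
      linear_combination he - x ^ 3 * (w ^ 3 + 1) * this)
    have hr := om_rel h6 w hw (Point.some x y h)
    rw [om_some h6 w hw h n1, om_some h6 w hw n1 n2] at hr
    have : en h6 w hw 1 1 (Point.some x y h) = -(Point.some (w * (w * x)) y n2) := by
      rw [en_apply, om_some h6 w hw h n1, one_smul, one_smul, eq_neg_iff_add_eq_zero]
      rw [← hr]; abel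
    rw [this, Point.xRep_neg]
    simp only [Point.xRep_some, Matrix.cons_val_zero, Matrix.cons_val_one, eval_C, eval_X]
    linear_combination x * w3 hw

theorem SS.rec3 {h6 : (6 : F) * B ≠ 0} {w : F} {hw : w ^ 2 + w + 1 = 0} {a b c d e f g h : ℤ}
    (h1 : SS h6 w hw a b) (h2 : SS h6 w hw c d) (h0 : SS h6 w hw e f) (he : e = a - c)
    (hf : f = b - d) (hg : g = a + c) (hh : h = b + d) : SS h6 w hw g h := by
  subst he hf hg hh
  exact h1.rec2 h2 h0

/-- [DEG] -/
theorem ss (h6 : (6 : F) * B ≠ 0) (w : F) (hw : w ^ 2 + w + 1 = 0) (a b : ℤ) :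
    SS h6 w hw a b := by
  have s00 := ss00 h6 w hw
  have s10 := ss10 h6 w hw
  have s01 := ss01 h6 w hw
  have s11 := ss11 h6 w hw
  have r0 : ∀ a : ℤ, SS h6 w hw a 0 := by
    intro a
    refine ind2 (Q := fun a => SS h6 w hw a 0) s00 s10 ?_ ?_ a
    · intro n h1 h2
      exact h1.rec3 s10 h2 (by ring) (by ring) (by ring) (by ring)
    · intro n h1 h2
      exact h1.rec3 s10.neg h2 (by ring) (by ring) (by ring) (by ring)
  have r1 : ∀ a : ℤ, SS h6 w hw a 1 := by
    intro a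
    refine ind2 (Q := fun a => SS h6 w hw a 1) s01 s11 ?_ ?_ a
    · intro n h1 h2
      exact h1.rec3 s10 h2 (by ring) (by ring) (by ring) (by ring)
    · intro n h1 h2
      exact h1.rec3 s10.neg h2 (by ring) (by ring) (by ring) (by ring)
  refine ind2 (Q := fun b => SS h6 w hw a b) (r0 a) (r1 a) ?_ ?_ b
  · intro n h1 h2
    exact h1.rec3 s01 h2 (by ring) (by ring) (by ring) (by ring)
  · intro n h1 h2
    exact h1.rec3 s01.neg h2 (by ring) (by ring) (by ring) (by ring)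

end Vale.Agent.P022.CM
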