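import Vale.Agent.P022.H420.PoiB
import Vale.Agent.P022.H472.Lit

/-!
The block [PO]: Poisson summation for theta series of binary forms with a periodic weight.
-/

open MeasureTheory Set Complex TopologicalSpace Filter Matrix
open scoped Real Topology
open Vale.Agent.P267.H775

namespace Vale.Agent.P022.H420

noncomputable section

set_option linter.unusedSectionVars false

/-- the matrix with `|A x|² = 2 M² Q(x)` -/
def AM (a b : ℤ) (D M : ℕ) : Matrix (Fin 2) (Fin 2) ℝ :=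
  !![√(2 / a) * M * a, √(2 / a) * M * (b / 2); 0, √(2 / a) * M * (√D / 2)]

section

variable {a b c : ℤ} {D : ℕ} (ha : 0 < a) (hD : 0 < D) (h : b ^ 2 - 4 * a * c = -(D : ℤ))

include ha in
lemma sq_s : √(2 / (a : ℝ)) ^ 2 = 2 / a := by
  have : (0 : ℝ) < a := by exact_mod_cast ha
  exact Real.sq_sqrt (by positivity)

include ha hD in
lemma det_AM (M : ℕ) : (AM a b D M).det = M ^ 2 * √D := by
  have h1 : (0 : ℝ) < a := by exact_mod_cast ha
  have h2 := sq_s ha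
  rw [AM, det_fin_two_of]
  calc √(2 / (a : ℝ)) * M * a * (√(2 / (a : ℝ)) * M * (√D / 2)) - √(2 / (a : ℝ)) * M * (b / 2) * 0
      = √(2 / (a : ℝ)) ^ 2 * M ^ 2 * a * (√D / 2) := by ring
    _ = M ^ 2 * √D := by rw [h2]; field_simp

lemma zc_AM (M : ℕ) (x : Fin 2 → ℝ) : zc (AM a b D M *ᵥ x) =
    (√(2 / (a : ℝ)) : ℂ) * M * (a * x 0 + (b + I * (√D : ℂ)) / 2 * x 1) := by
  simp only [zc, AM, mulVec, dotProduct, Fin.sum_univ_two]
  simp
  ring

include h in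
lemma norm_ev_sq (v : ℤ × ℤ) : ‖ev a b D v‖ ^ 2 = a * (Qf a b c v : ℝ) := by
  have h1 : ev a b D v = ((a * v.1 + b / 2 * v.2 : ℝ) : ℂ) + ((√D / 2 * v.2 : ℝ) : ℂ) * I := by
    simp only [ev]
    push_cast
    ring
  have h2 : (b : ℝ) ^ 2 - 4 * a * c = -(D : ℝ) := by exact_mod_cast h
  have h3 : √(D : ℝ) ^ 2 = D := Real.sq_sqrt (Nat.cast_nonneg D)
  rw [← Complex.normSq_eq_norm_sq, h1, Complex.normSq_add_mul_I]
  simp only [Qf]
  push_cast
  linear_combination (1 / 4 : ℝ) * v.2 ^ 2 * h3 + (1 / 4 : ℝ) * v.2 ^ 2 * h2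

include ha h in
lemma pg_AM_add (κ : ℕ) {M : ℕ} (hM : 0 < M) (w : ℂ) (i j : ℤ) (n : Fin 2 → ℤ) :
    pg (AM a b D M) κ w ((fun r : Fin 2 => (((![i, j] r : ℤ) : ℝ) / M)) + toR n) =
      (√(2 / (a : ℝ)) : ℂ) ^ κ * (ev a b D (i + M * n 0, j + M * n 1) ^ κ *
        cexp (2 * π * I * (Qf a b c (i + M * n 0, j + M * n 1) : ℂ) * w)) := by
  have hM' : (M : ℂ) ≠ 0 := by exact_mod_cast hM.ne'
  have ha' : (0 : ℝ) < a := by exact_mod_cast ha
  have e1 : zc (AM a b D M *ᵥ ((fun r : Fin 2 => (((![i, j] r : ℤ) : ℝ) / M)) + toR n)) =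
      (√(2 / (a : ℝ)) : ℂ) * ev a b D (i + M * n 0, j + M * n 1) := by
    rw [zc_AM]
    simp only [ev, Pi.add_apply, toR_apply]
    push_cast
    field_simp
  rw [pg_apply, gau_apply, qf_eq_norm, e1, mul_pow, norm_mul, mul_pow, norm_ev_sq h,
    Complex.norm_real, Real.norm_eq_abs, sq_abs, sq_s ha, mul_assoc]
  congr 3
  push_cast
  have : (a : ℂ) ≠ 0 := by exact_mod_cast ha.ne'
  field_simp

/-- the dual vector -/
def yv (a b : ℤ) (D M : ℕ) (v : ℤ × ℤ) : Fin 2 → ℝ :=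
  ![√(2 / (a : ℝ)) / (M * √D) * (√D / 2 * (-v.2)),
    √(2 / (a : ℝ)) / (M * √D) * (a * v.1 + b / 2 * v.2)]

include ha hD in
lemma dual_AM {M : ℕ} (hM : 0 < M) (v : ℤ × ℤ) :
    ((AM a b D M)⁻¹)ᵀ *ᵥ toR ![-v.2, v.1] = yv a b D M v := by
  have hdet : (AM a b D M).det ≠ 0 := by
    rw [det_AM ha hD]
    have : (0 : ℝ) < M := by exact_mod_cast hM
    have : (0 : ℝ) < D := by exact_mod_cast hD
    positivity
  have ha' : (0 : ℝ) < a := by exact_mod_cast ha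
  have hM' : (0 : ℝ) < M := by exact_mod_cast hM
  have hD' : (0 : ℝ) < √D := by
    have : (0 : ℝ) < D := by exact_mod_cast hD
    positivity
  have h2 := sq_s ha
  have h3 : √(2 / (a : ℝ)) ^ 2 * a = 2 := by rw [h2]; field_simp
  have key : toR ![-v.2, v.1] = (AM a b D M)ᵀ *ᵥ yv a b D M v := by
    clear h2 hdet
    unfold AM yv
    generalize √(2 / (a : ℝ)) = s at h3 ⊢
    funext i
    fin_cases i
    · simp [mulVec, dotProduct, Fin.sum_univ_two, toR]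
      field_simp
      linear_combination -(v.2 : ℝ) * h3
    · simp [mulVec, dotProduct, Fin.sum_univ_two, toR]
      field_simp
      linear_combination (-2 * v.1 : ℝ) * h3
  rw [key, mulVec_mulVec, ← transpose_mul, mul_nonsing_inv _ (isUnit_iff_ne_zero.2 hdet),
    transpose_one, one_mulVec]

lemma zc_yv {M : ℕ} (hM : 0 < M) (hD : 0 < D) (v : ℤ × ℤ) : zc (yv a b D M v) =
    (√(2 / (a : ℝ)) : ℂ) * (I / (M * (√D : ℂ))) * ev a b D v := by
  have hM' : (M : ℂ) ≠ 0 := by exact_mod_cast hM.ne'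
  have hD' : ((√D : ℝ) : ℂ) ≠ 0 := by
    have : (0 : ℝ) < D := by exact_mod_cast hD
    have : √(D : ℝ) ≠ 0 := by positivity
    exact_mod_cast this
  simp only [zc, yv, ev, Matrix.cons_val_zero, Matrix.cons_val_one]
  push_cast
  field_simp
  ring_nf
  rw [I_sq]
  ring

end

/-- residues and quotients -/
def rq (M : ℕ) (hM : 0 < M) : (Fin M × Fin M) × (Fin 2 → ℤ) ≃ ℤ × ℤ where
  toFun p := ((p.1.1 : ℕ) + M * p.2 0, (p.1.2 : ℕ) + M * p.2 1)
  invFun v := ((⟨(v.1 % M).toNat, by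
      have h1 := Int.emod_nonneg v.1 (b := (M : ℤ)) (by omega)
      have h2 := Int.emod_lt_of_pos v.1 (b := (M : ℤ)) (by omega)
      omega⟩, ⟨(v.2 % M).toNat, by
      have h1 := Int.emod_nonneg v.2 (b := (M : ℤ)) (by omega)
      have h2 := Int.emod_lt_of_pos v.2 (b := (M : ℤ)) (by omega)
      omega⟩), ![v.1 / M, v.2 / M])
  left_inv := by
    rintro ⟨⟨i, j⟩, n⟩
    have hi := i.2
    have hj := j.2
    have e1 : (((i : ℕ) : ℤ) + M * n 0) % M = i := by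
      rw [Int.add_mul_emod_self_left]
      exact Int.emod_eq_of_lt (by omega) (by omega)
    have e2 : (((j : ℕ) : ℤ) + M * n 1) % M = j := by
      rw [Int.add_mul_emod_self_left]
      exact Int.emod_eq_of_lt (by omega) (by omega)
    have e3 : (((i : ℕ) : ℤ) + M * n 0) / M = n 0 := by
      rw [Int.add_mul_ediv_left _ _ (by omega), Int.ediv_eq_zero_of_lt (by omega) (by omega)]
      ring
    have e4 : (((j : ℕ) : ℤ) + M * n 1) / M = n 1 := by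
      rw [Int.add_mul_ediv_left _ _ (by omega), Int.ediv_eq_zero_of_lt (by omega) (by omega)]
      ring
    simp only [e1, e2, e3, e4]
    refine Prod.ext (Prod.ext (Fin.ext ?_) (Fin.ext ?_)) ?_
    · simp
    · simp
    · funext r
      fin_cases r <;> simp
  right_inv := by
    rintro ⟨x, y⟩
    have h1 := Int.emod_nonneg x (b := (M : ℤ)) (by omega)
    have h2 := Int.emod_nonneg y (b := (M : ℤ)) (by omega)
    have h3 := Int.emod_add_mul_ediv x M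
    have h4 := Int.emod_add_mul_ediv y M
    simp only [Matrix.cons_val_zero, Matrix.cons_val_one]
    rw [Int.toNat_of_nonneg h1, Int.toNat_of_nonneg h2, h3, h4]

lemma Per.bdd {M : ℕ} (hM : 0 < M) {f : ℤ × ℤ → ℂ} (hf : Per M f) :
    ∃ B : ℝ, 0 ≤ B ∧ ∀ v, ‖f v‖ ≤ B := by
  refine ⟨∑ p : Fin M × Fin M, ‖f ((p.1 : ℕ), (p.2 : ℕ))‖,
    Finset.sum_nonneg fun _ _ => norm_nonneg _, fun v => ?_⟩
  obtain ⟨⟨p, n⟩, rfl⟩ := (rq M hM).surjective v
  have e : f (rq M hM (p, n)) = f ((p.1 : ℕ), (p.2 : ℕ)) := by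
    have := hf ((p.1 : ℕ), (p.2 : ℕ)) (n 0, n 1)
    rw [← this]
    rfl
  rw [e]
  exact Finset.single_le_sum (f := fun p : Fin M × Fin M => ‖f ((p.1 : ℕ), (p.2 : ℕ))‖)
    (fun _ _ => norm_nonneg _) (Finset.mem_univ p)

/-- summability of the theta series -/
theorem summable_thT {a b c : ℤ} {D : ℕ} (ha : 0 < a) (hD : 0 < D)
    (h : b ^ 2 - 4 * a * c = -(D : ℤ)) (κ : ℕ) {B : ℝ} {f : ℤ × ℤ → ℂ} (hB : ∀ v, ‖f v‖ ≤ B)
    {w : ℂ} (hw : 0 < w.im) : Summable (thT a b c D κ f w) := by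
  have hB0 : 0 ≤ B := (norm_nonneg _).trans (hB (0, 0))
  have hdet : (AM a b D 1).det ≠ 0 := by
    rw [det_AM ha hD]
    have : (0 : ℝ) < D := by exact_mod_cast hD
    positivity
  have h1 := norm_fc_bound (AM a b D 1) hdet κ hw
  have h2 := (finTwoArrowEquiv ℤ).symm.summable_iff.2 h1
  have ha' : (0 : ℝ) < a := by exact_mod_cast ha
  have hs : 0 < √(2 / (a : ℝ)) := by positivity
  refine Summable.of_norm_bounded (h2.mul_left (B * (√(2 / (a : ℝ)) ^ κ)⁻¹)) fun v => ?_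
  have e := pg_AM_add (a := a) (b := b) (c := c) (D := D) ha h κ one_pos w 0 0 ![v.1, v.2]
  have e0 : ((fun r : Fin 2 => (((![(0 : ℤ), 0] r : ℤ) : ℝ) / (1 : ℕ))) + toR ![v.1, v.2]) =
      toR ![v.1, v.2] := by
    funext r
    fin_cases r <;> simp
  rw [e0] at e
  have e1 : ((0 : ℤ) + ((1 : ℕ) : ℤ) * ![v.1, v.2] 0, (0 : ℤ) + ((1 : ℕ) : ℤ) * ![v.1, v.2] 1) = v := by
    simp
  rw [e1] at e
  simp only [Function.comp, finTwoArrowEquiv_symm_apply]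
  rw [e, thT, norm_mul, norm_mul, norm_mul, norm_pow, norm_pow, norm_mul, norm_pow,
    Complex.norm_real, Real.norm_eq_abs, abs_of_pos hs]
  have hne : √(2 / (a : ℝ)) ^ κ ≠ 0 := by positivity
  have e3 : B * (√(2 / (a : ℝ)) ^ κ)⁻¹ * (√(2 / (a : ℝ)) ^ κ * (‖ev a b D v‖ ^ κ *
      ‖cexp (2 * π * I * (Qf a b c v : ℂ) * w)‖)) =
      B * (‖ev a b D v‖ ^ κ * ‖cexp (2 * π * I * (Qf a b c v : ℂ) * w)‖) := by
    field_simp
  rw [e3, mul_assoc]
  exact mul_le_mul_of_nonneg_right (hB v) (by positivity)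

/-- **[PO]** -/
theorem po : POStmt := by
  intro a b c D ha hD h κ M hM f hf w hw
  obtain ⟨B, hB0, hB⟩ := Per.bdd hM hf
  have hsum := summable_thT ha hD h κ hB hw
  refine ⟨hsum, ?_⟩
  have hw0 : w ≠ 0 := by rintro rfl; simp at hw
  have ha' : (0 : ℝ) < a := by exact_mod_cast ha
  have hs : 0 < √(2 / (a : ℝ)) := by positivity
  have hsC : ((√(2 / (a : ℝ)) : ℝ) : ℂ) ≠ 0 := by exact_mod_cast hs.ne'
  have hMC : (M : ℂ) ≠ 0 := by exact_mod_cast hM.ne'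
  have hDR : (0 : ℝ) < D := by exact_mod_cast hD
  have hsD : ((√D : ℝ) : ℂ) ≠ 0 := by
    have : √(D : ℝ) ≠ 0 := by positivity
    exact_mod_cast this
  have hdet : (AM a b D M).det ≠ 0 := by
    rw [det_AM ha hD]
    have : (0 : ℝ) < M := by exact_mod_cast hM
    positivity
  -- decomposition into classes
  have hs1 : Summable fun p : (Fin M × Fin M) × (Fin 2 → ℤ) => thT a b c D κ f w (rq M hM p) :=
    (rq M hM).summable_iff.2 hsum
  have h1 : th a b c D κ f w = ∑ p : Fin M × Fin M, ∑' n : Fin 2 → ℤ,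
      thT a b c D κ f w (rq M hM (p, n)) := by
    rw [th, ← (rq M hM).tsum_eq, hs1.tsum_prod, tsum_fintype]
  have h2 : ∀ p : Fin M × Fin M, ∀ n : Fin 2 → ℤ, thT a b c D κ f w (rq M hM (p, n)) =
      f ((p.1 : ℕ), (p.2 : ℕ)) * ((√(2 / (a : ℝ)) : ℂ) ^ κ)⁻¹ *
        pg (AM a b D M) κ w ((fun r : Fin 2 =>
          (((![((p.1 : ℕ) : ℤ), ((p.2 : ℕ) : ℤ)] r : ℤ) : ℝ) / M)) + toR n) := by
    intro p n
    rw [pg_AM_add ha h κ hM]
    have e : f (rq M hM (p, n)) = f ((p.1 : ℕ), (p.2 : ℕ)) := by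
      have := hf ((p.1 : ℕ), (p.2 : ℕ)) (n 0, n 1)
      rw [← this]
      rfl
    rw [thT, e]
    have hne : (√(2 / (a : ℝ)) : ℂ) ^ κ ≠ 0 := pow_ne_zero _ hsC
    change f ((p.1 : ℕ), (p.2 : ℕ)) * ev a b D (((p.1 : ℕ) : ℤ) + M * n 0, ((p.2 : ℕ) : ℤ) + M * n 1) ^ κ *
      cexp (2 * π * I * (Qf a b c (((p.1 : ℕ) : ℤ) + M * n 0, ((p.2 : ℕ) : ℤ) + M * n 1) : ℂ) * w) = _
    field_simp
  have h3 : ∀ p : Fin M × Fin M, HasSum (fun k : Fin 2 → ℤ =>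
      f ((p.1 : ℕ), (p.2 : ℕ)) * ((√(2 / (a : ℝ)) : ℂ) ^ κ)⁻¹ *
      (((|(AM a b D M).det|⁻¹ : ℝ) * (I / w) * (1 / w) ^ κ *
      (zc (((AM a b D M)⁻¹)ᵀ *ᵥ toR k) ^ κ *
        cexp (π * I * (-1 / w) * (qf ((AM a b D M)⁻¹)ᵀ (toR k) : ℝ)))) *
        chr k (fun r : Fin 2 => (((![((p.1 : ℕ) : ℤ), ((p.2 : ℕ) : ℤ)] r : ℤ) : ℝ) / M))))
      (∑' n : Fin 2 → ℤ, thT a b c D κ f w (rq M hM (p, n))) := by
    intro p
    have h4 := (poi_pg (AM a b D M) hdet κ hw (fun r : Fin 2 =>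
      (((![((p.1 : ℕ) : ℤ), ((p.2 : ℕ) : ℤ)] r : ℤ) : ℝ) / M))).mul_left
      (f ((p.1 : ℕ), (p.2 : ℕ)) * ((√(2 / (a : ℝ)) : ℂ) ^ κ)⁻¹)
    rw [tsum_congr (fun n => h2 p n), tsum_mul_left]
    exact h4
  have h5 := hasSum_sum (s := Finset.univ) fun p _ => h3 p
  rw [← h1] at h5
  -- reindex
  let e : ℤ × ℤ ≃ (Fin 2 → ℤ) :=
    { toFun := fun v => ![-v.2, v.1]
      invFun := fun k => (k 1, -k 0)
      left_inv := fun v => by simp
      right_inv := fun k => by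
        funext r
        fin_cases r <;> simp }
  have h6 := (e.hasSum_iff).2 h5
  have h7 : ∀ v : ℤ × ℤ, (∑ p : Fin M × Fin M,
      f ((p.1 : ℕ), (p.2 : ℕ)) * ((√(2 / (a : ℝ)) : ℂ) ^ κ)⁻¹ *
      (((|(AM a b D M).det|⁻¹ : ℝ) * (I / w) * (1 / w) ^ κ *
      (zc (((AM a b D M)⁻¹)ᵀ *ᵥ toR (e v)) ^ κ *
        cexp (π * I * (-1 / w) * (qf ((AM a b D M)⁻¹)ᵀ (toR (e v)) : ℝ)))) *
        chr (e v) (fun r : Fin 2 => (((![((p.1 : ℕ) : ℤ), ((p.2 : ℕ) : ℤ)] r : ℤ) : ℝ) / M)))) =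
      ((M : ℂ) ^ κ * (Complex.I / ((Real.sqrt D : ℂ) * M ^ 2 * w)) ^ (κ + 1)) *
        thT a b c D κ (hatF M f) (-1 / (D * M ^ 2 * w)) v := by
    intro v
    have e1 : ((AM a b D M)⁻¹)ᵀ *ᵥ toR (e v) = yv a b D M v := dual_AM ha hD hM v
    have e2 : (|(AM a b D M).det|⁻¹ : ℝ) = (M ^ 2 * √D)⁻¹ := by
      rw [det_AM ha hD, abs_of_nonneg (by positivity)]
    have e3 : (qf ((AM a b D M)⁻¹)ᵀ (toR (e v)) : ℝ) = 2 * Qf a b c v / (M ^ 2 * D) := by
      rw [qf_eq_norm, e1, zc_yv hM hD, norm_mul, norm_mul, mul_pow, mul_pow, norm_ev_sq h,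
        Complex.norm_real, Real.norm_eq_abs, sq_abs, sq_s ha, norm_div, norm_mul,
        Complex.norm_real, Real.norm_eq_abs, Complex.norm_I, Complex.norm_natCast, div_pow,
        mul_pow, sq_abs, Real.sq_sqrt hDR.le]
      have : (M : ℝ) ≠ 0 := by exact_mod_cast hM.ne'
      field_simp
    have e4 : ∀ p : Fin M × Fin M, chr (e v) (fun r : Fin 2 =>
        (((![((p.1 : ℕ) : ℤ), ((p.2 : ℕ) : ℤ)] r : ℤ) : ℝ) / M)) =
        cexp (2 * π * I * ((v.1 * p.2 - v.2 * p.1 : ℤ) : ℂ) / M) := by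
      intro p
      rw [chr, Fin.sum_univ_two]
      congr 1
      change 2 * π * I * (((-v.2 : ℤ) : ℂ) * ((((p.1 : ℕ) : ℤ) : ℝ) / M : ℝ) +
        ((v.1 : ℤ) : ℂ) * ((((p.2 : ℕ) : ℤ) : ℝ) / M : ℝ)) = _
      push_cast
      field_simp
      ring
    have e5 : thT a b c D κ (hatF M f) (-1 / (D * M ^ 2 * w)) v =
        (∑ p : Fin M × Fin M, f ((p.1 : ℕ), (p.2 : ℕ)) *
          cexp (2 * π * I * ((v.1 * p.2 - v.2 * p.1 : ℤ) : ℂ) / M)) * ev a b D v ^ κ *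
          cexp (2 * π * I * (Qf a b c v : ℂ) * (-1 / (D * M ^ 2 * w))) := by
      rw [thT, hatF, Fintype.sum_prod_type]
    rw [e5, e1, e2, e3, zc_yv hM hD, Finset.sum_mul, Finset.sum_mul, Finset.mul_sum]
    refine Finset.sum_congr rfl fun p _ => ?_
    rw [e4 p]
    have e6 : (π * I * (-1 / w) * ((2 * Qf a b c v / (M ^ 2 * D) : ℝ) : ℂ)) =
        2 * π * I * (Qf a b c v : ℂ) * (-1 / (D * M ^ 2 * w)) := by
      push_cast
      have : (D : ℂ) ≠ 0 := by exact_mod_cast hD.ne'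
      field_simp
    rw [e6]
    simp only [mul_pow, div_pow, pow_succ, one_pow]
    push_cast
    field_simp
    rw [one_pow, mul_one]
  have h8 : HasSum (fun v : ℤ × ℤ =>
      ((M : ℂ) ^ κ * (Complex.I / ((Real.sqrt D : ℂ) * M ^ 2 * w)) ^ (κ + 1)) *
        thT a b c D κ (hatF M f) (-1 / (D * M ^ 2 * w)) v) (th a b c D κ f w) := by
    refine h6.congr_fun ?_ |> fun x => x
    intro v
    exact (h7 v).symm
  rw [← h8.tsum_eq, tsum_mul_left]
  rfl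

end

end Vale.Agent.P022.H420
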