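import Vale.Agent.P022.H420.CMFin
import Vale.Agent.P022.H494.Main1F

/-!
P022: the unconditional family for `K = ℚ(√-3)` (no class field theory).
-/

open NumberField Matrix

noncomputable section

namespace Vale.Agent.P022.CM

/-- **`K = ℚ(√-3)`, unconditional.** There is a continuous character `Φ` of `G_K`, with kernel the
elements which fix all the points of `2`-power order of `y² = x³ + 16` and with image containing
`ι(α)` for every `α ≡ 1 mod 6`, such that every representation induced from a continuous character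
of `G_K` which factors through `Φ` is odd and occurs at level `27`, the conclusion of Q1. -/
theorem cm [DecidableEq Qb] (K : Type) [Field K] [NumberField K]
    [IsCyclotomicExtension {3} ℚ K] (j : K →+* Qb)
    (E' : Type) [NontriviallyNormedField E'] [NormedAlgebra ℚ_[2] E'] [IsUltrametricDist E']
    [FiniteDimensional ℚ_[2] E'] (ι : K →+* E') (h6 : (6 : Qb) * ((16 : ℤ) : Qb) ≠ 0) :
    ∃ Φ : GK j →* E'ˣ, Continuous Φ ∧ (∀ g : GK j, Φ g = 1 ↔ FixTors h6 g) ∧
      (∀ α : 𝓞 K, (6 : 𝓞 K) ∣ α - 1 → ∃ g : GK j, (Φ g : E') = ι α) ∧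
      ∀ χ : GK j →* E'ˣ, Continuous χ → (∀ g : GK j, Φ g = 1 → χ g = 1) →
        ∀ (E : Type) [NontriviallyNormedField E] [NormedAlgebra ℚ_[2] E]
          [FiniteDimensional ℚ_[2] E] [NormedAlgebra E E'] [IsScalarTower ℚ_[2] E E']
          (r : GQ →* GL (Fin 2) E), IsInd j χ (bc E' r) →
          OddRep r ∧ Occurs E 27 r ∧ Q1Concl E r :=
  cmFam H494.main1 K j E' ι h6

end Vale.Agent.P022.CM
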