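import Mathlib

/-!
P022, explicit reciprocity for `K = ℚ(√-3)`: the arithmetic of `K = ℚ(ζ₃)`.
-/

open NumberField

noncomputable section

namespace Vale.Agent.P022.CM

section

variable (K : Type) [Field K] [NumberField K] [IsCyclotomicExtension {3} ℚ K]

theorem kFin : Module.finrank ℚ K = 2 := by
  rw [IsCyclotomicExtension.finrank K (Polynomial.cyclotomic.irreducible_rat (by norm_num : 0 < 3))]
  decide

theorem kQuad : Algebra.IsQuadraticExtension ℚ K := ⟨kFin K⟩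

theorem kTC : NumberField.IsTotallyComplex K :=
  IsCyclotomicExtension.Rat.isTotallyComplex (n := 3) K (by norm_num)

theorem kDisc : NumberField.discr K = -((3 : ℕ) : ℤ) := by
  have : Fact (Nat.Prime 3) := ⟨Nat.prime_three⟩
  have h := IsCyclotomicExtension.Rat.discr_prime 3 K
  simpa using h

end

section

variable {K : Type} [Field K] [NumberField K] [IsCyclotomicExtension {3} ℚ K]

omit [IsCyclotomicExtension {3} ℚ K] in
theorem prim {ζ : K} (hζ : ζ ^ 2 + ζ + 1 = 0) : IsPrimitiveRoot ζ 3 := by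
  have h3 : ζ ^ 3 = 1 := by linear_combination (ζ - 1) * hζ
  refine IsPrimitiveRoot.mk_of_lt ζ (by norm_num) h3 ?_
  intro l hl hl3 h
  interval_cases l
  · rw [pow_one] at h
    subst h
    norm_num at hζ
  · have : ζ ^ 3 = ζ := by
      calc ζ ^ 3 = ζ ^ 2 * ζ := by ring
        _ = ζ := by rw [h, one_mul]
    rw [h3] at this
    rw [← this] at hζ
    norm_num at hζ

theorem kInt {ζ : K} (hζ : ζ ^ 2 + ζ + 1 = 0) (α : 𝓞 K) : ∃ a b : ℤ, (α : K) = a + b * ζ := by
  have hp := prim hζ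
  have : Fact (Nat.Prime 3) := ⟨Nat.prime_three⟩
  have : IsCyclotomicExtension {3 ^ (0 + 1)} ℚ K := by
    rw [zero_add, pow_one]; infer_instance
  have hp' : IsPrimitiveRoot ζ (3 ^ (0 + 1)) := by simpa using hp
  have h1 : α ∈ Algebra.adjoin ℤ {hp'.integralPowerBasisOfPrimePow.gen} := by
    rw [hp'.integralPowerBasisOfPrimePow.adjoin_gen_eq_top]; trivial
  rw [hp'.integralPowerBasisOfPrimePow_gen] at h1
  induction h1 using Algebra.adjoin_induction with
  | mem x hx =>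
    rw [Set.mem_singleton_iff] at hx
    subst hx
    refine ⟨0, 1, ?_⟩
    show ζ = _
    simp
  | algebraMap r => exact ⟨r, 0, by simp⟩
  | add x y _ _ hx hy =>
    obtain ⟨a, b, h⟩ := hx
    obtain ⟨c, d, h'⟩ := hy
    refine ⟨a + c, b + d, ?_⟩
    rw [show ((x + y : 𝓞 K) : K) = (x : K) + (y : K) from rfl, h, h']
    push_cast; ring
  | mul x y _ _ hx hy =>
    obtain ⟨a, b, h⟩ := hx
    obtain ⟨c, d, h'⟩ := hy
    refine ⟨a * c - b * d, a * d + b * c - b * d, ?_⟩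
    rw [show ((x * y : 𝓞 K) : K) = (x : K) * (y : K) from rfl, h, h']
    push_cast
    linear_combination (b : K) * d * hζ

/-- an element `≡ 1 mod 3` is determined by the ideal it generates -/
theorem kUniq {ζ : K} (hζ : ζ ^ 2 + ζ + 1 = 0) {α β : 𝓞 K} (hα : (3 : 𝓞 K) ∣ α - 1)
    (hβ : (3 : 𝓞 K) ∣ β - 1) (h : Ideal.span {α} = Ideal.span {β}) : α = β := by
  have hp := prim hζ
  rw [Ideal.span_singleton_eq_span_singleton] at h
  obtain ⟨u, hu⟩ := h
  -- `α * u = β`
  have h3 : (3 : 𝓞 K) ∣ (u : 𝓞 K) - ((1 : ℤ) : 𝓞 K) := by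
    have e : (u : 𝓞 K) - ((1 : ℤ) : 𝓞 K) = (β - 1) - (α - 1) * u := by
      rw [← hu]; push_cast; ring
    rw [e]
    exact dvd_sub hβ (hα.mul_right _)
  have hl : (hp.toInteger - 1) ^ 2 ∣ (u : 𝓞 K) - ((1 : ℤ) : 𝓞 K) := by
    refine dvd_trans ⟨-(hp.toInteger) ^ 2, ?_⟩ h3
    have he : (hp.toInteger : 𝓞 K) ^ 2 + hp.toInteger + 1 = 0 := by
      apply RingOfIntegers.ext
      simpa [show (algebraMap (𝓞 K) K) hp.toInteger = ζ from rfl] using hζ
    linear_combination (hp.toInteger ^ 2 - 3 * hp.toInteger + 3) * he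
  rcases IsCyclotomicExtension.Rat.Three.eq_one_or_neg_one_of_unit_of_congruent hp u ⟨1, hl⟩
    with h | h
  · rw [← hu, h]; simp
  · exfalso
    rw [h] at h3
    have h4 : (3 : 𝓞 K) ∣ ((2 : ℤ) : 𝓞 K) := by
      rw [← dvd_neg]
      convert h3 using 1
      push_cast; ring
    have h5 : ((3 : ℤ) : 𝓞 K) ∣ ((2 : ℤ) : 𝓞 K) := by exact_mod_cast h4
    have h6 : (3 : ℤ) ∣ 2 := by
      obtain ⟨γ, hγ⟩ := h5
      obtain ⟨a, b, hab'⟩ := kInt hζ γ
      have hab : algebraMap (𝓞 K) K γ = a + b * ζ := hab'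
      have h7 := congrArg (algebraMap (𝓞 K) K) hγ
      rw [map_mul, map_intCast, map_intCast] at h7
      rw [hab] at h7
      have hfin := kFin K
      -- `2 = 3 a + 3 b ζ` forces `b = 0`
      have hb : (b : K) = 0 := by
        by_contra hb
        have h8 : ζ = (((2 - 3 * a) / (3 * b) : ℚ) : K) := by
          push_cast at h7 ⊢
          field_simp
          linear_combination -h7
        rw [h8] at hζ
        set z : ℚ := (2 - 3 * a) / (3 * b)
        have h9 : z ^ 2 + z + 1 = 0 := by exact_mod_cast hζ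
        nlinarith [sq_nonneg (2 * z + 1)]
      rw [hb] at h7
      have h8 : (2 : ℤ) = 3 * a := by
        have : ((2 : ℤ) : K) = ((3 * a : ℤ) : K) := by
          push_cast at h7 ⊢
          linear_combination h7
        exact_mod_cast this
      exact ⟨a, h8⟩
    norm_num at h6

end

section

variable {K : Type} [Field K] {ζ : K} (hζ : ζ ^ 2 + ζ + 1 = 0) {E : Type}
  [NontriviallyNormedField E] [NormedAlgebra ℚ_[2] E] [IsUltrametricDist E] (ι : K →+* E)

omit [IsUltrametricDist E] in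
theorem nInt (n : ℤ) : ‖(n : E)‖ = ‖(n : ℚ_[2])‖ := by
  rw [← norm_algebraMap' E (n : ℚ_[2]), map_intCast]

omit [IsUltrametricDist E] in
theorem nTwo : ‖(2 : E)‖ < 1 := by
  have h := nInt (E := E) 2
  push_cast at h
  rw [h]
  have := Padic.norm_p_lt_one (p := 2)
  simpa using this

include hζ in
theorem nLe (x y : ℤ) : ‖ι (x + y * ζ)‖ ≤ 1 := by
  have hz : ‖ι ζ‖ = 1 := by
    have h3 : ζ ^ 3 = 1 := by linear_combination (ζ - 1) * hζ
    have h4 : ‖ι ζ‖ ^ 3 = 1 := by rw [← norm_pow, ← map_pow, h3, map_one, norm_one]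
    exact (pow_eq_one_iff_of_nonneg (norm_nonneg _) (by norm_num)).1 h4
  have hi : ∀ n : ℤ, ‖(n : E)‖ ≤ 1 := fun n => by
    rw [nInt]; exact Padic.norm_int_le_one n
  rw [map_add, map_mul, map_intCast, map_intCast]
  refine (IsUltrametricDist.norm_add_le_max _ _).trans (max_le (hi x) ?_)
  rw [norm_mul, hz, mul_one]
  exact hi y

include hζ in
/-- the converse estimate -/
theorem nDvd (n : ℕ) : ∀ x y : ℤ, ‖ι (x + y * ζ)‖ ≤ ‖(2 : E)‖ ^ n →
    (2 ^ n : ℤ) ∣ x ∧ (2 ^ n : ℤ) ∣ y := by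
  have h2 : ‖(2 : E)‖ < 1 := nTwo
  have h20 : (0 : ℝ) < ‖(2 : E)‖ := by
    have h := nInt (E := E) 2
    push_cast at h
    rw [h]
    rw [norm_pos_iff]
    norm_num
  induction n with
  | zero => intro x y _; simp
  | succ n ih =>
    intro x y h
    by_cases hxy : (2 : ℤ) ∣ x ∧ (2 : ℤ) ∣ y
    · obtain ⟨⟨x', rfl⟩, ⟨y', rfl⟩⟩ := hxy
      have e : ι (((2 * x' : ℤ) : K) + ((2 * y' : ℤ) : K) * ζ) = 2 * ι (x' + y' * ζ) := by
        push_cast
        rw [← map_ofNat ι 2, ← map_mul]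
        congr 1; ring
      rw [e, norm_mul, pow_succ, mul_comm] at h
      have h' := le_of_mul_le_mul_right h h20
      obtain ⟨h3, h4⟩ := ih x' y' h'
      rw [pow_succ, mul_comm]
      exact ⟨mul_dvd_mul_left 2 h3, mul_dvd_mul_left 2 h4⟩
    · exfalso
      have hodd : Odd (x ^ 2 - x * y + y ^ 2) := by
        rcases Int.even_or_odd' x with ⟨a, ha | ha⟩ <;>
          rcases Int.even_or_odd' y with ⟨b, hb | hb⟩
        · exact absurd ⟨⟨a, ha⟩, ⟨b, hb⟩⟩ hxy
        · exact ⟨2 * a ^ 2 - 2 * a * b - a + 2 * b ^ 2 + 2 * b, by rw [ha, hb]; ring⟩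
        · exact ⟨2 * a ^ 2 + 2 * a - 2 * a * b - b + 2 * b ^ 2, by rw [ha, hb]; ring⟩
        · exact ⟨2 * a ^ 2 + a - 2 * a * b + 2 * b ^ 2 + b, by rw [ha, hb]; ring⟩
      have hn : ‖((x ^ 2 - x * y + y ^ 2 : ℤ) : E)‖ = 1 := by
        rw [nInt, Padic.norm_intCast_eq_one_iff]
        obtain ⟨c, hc⟩ := hodd
        exact ⟨1, -c, by push_cast; linear_combination hc⟩
      have e : ι (x + y * ζ) * ι (((x - y : ℤ) : K) + ((-y : ℤ) : K) * ζ) =
          ((x ^ 2 - x * y + y ^ 2 : ℤ) : E) := by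
        rw [← map_mul, ← map_intCast ι]
        congr 1
        push_cast
        linear_combination (-(y : K) ^ 2) * hζ
      have h5 := nLe hζ ι (x - y) (-y)
      rw [← e, norm_mul] at hn
      have h6 : ‖ι (x + y * ζ)‖ < 1 :=
        h.trans_lt (pow_lt_one₀ (norm_nonneg _) h2 (by omega))
      have h7 : ‖ι (x + y * ζ)‖ * ‖ι (((x - y : ℤ) : K) + ((-y : ℤ) : K) * ζ)‖ < 1 := by
        calc _ ≤ ‖ι (x + y * ζ)‖ * 1 := mul_le_mul_of_nonneg_left h5 (norm_nonneg _)
          _ < 1 := by rw [mul_one]; exact h6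
      linarith

end

end Vale.Agent.P022.CM
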