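import Vale.Agent.P022.H20.Fin
import Vale.Agent.P022.H494.PsiOf
import Vale.Agent.P022.H916.Ind
import Vale.Agent.P022.H119.CM.AttF
import Vale.Agent.P022.H420.CMK

/-!
P022, explicit reciprocity for `K = ℚ(√-3)`: every character of `Gal(K(E[2^∞])/K)`,
`E : y² = x³ + 16`, gives a representation which occurs at level `27`.
-/

open NumberField UniqueFactorizationMonoid Matrix

noncomputable section

namespace Vale.Agent.P022.CM

section

variable {K : Type} [Field K] [NumberField K] (j : K →+* Qb)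

omit [NumberField K] in
/-- a prime ideal of `𝓞 K` is below a prime of `𝓞 ℚ̄` -/
theorem exists_above (𝔭 : Ideal (𝓞 K)) (h𝔭 : 𝔭.IsPrime) :
    ∃ P : Ideal (𝓞 Qb), P.IsPrime ∧ below j P = 𝔭 := by
  let _ := H916.algj j
  have hinj : Function.Injective (algebraMap (𝓞 K) (𝓞 Qb)) := by
    intro x y h
    have h' := congrArg (algebraMap (𝓞 Qb) Qb) h
    apply RingOfIntegers.ext
    exact j.injective h'
  have hint : Algebra.IsIntegral (𝓞 K) (𝓞 Qb) := by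
    refine ⟨fun x => ?_⟩
    obtain ⟨q, hq, hx⟩ := RingOfIntegers.isIntegral x
    refine ⟨q.map (algebraMap ℤ (𝓞 K)), hq.map _, ?_⟩
    rw [Polynomial.eval₂_map]
    have : (algebraMap (𝓞 K) (𝓞 Qb)).comp (algebraMap ℤ (𝓞 K)) = algebraMap ℤ (𝓞 Qb) :=
      RingHom.ext_int _ _
    rw [this]
    exact hx
  obtain ⟨P, _, hP, h⟩ := Ideal.exists_ideal_over_prime_of_isIntegral 𝔭 (⊥ : Ideal (𝓞 Qb))
    (by
      rw [← RingHom.ker_eq_comap_bot, (RingHom.injective_iff_ker_eq_bot _).1 hinj]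
      exact bot_le)
  exact ⟨P, hP, h⟩

/-- a nonzero prime ideal contains a prime number -/
theorem exists_nat (𝔭 : Ideal (𝓞 K)) (h𝔭 : 𝔭.IsPrime) (h0 : 𝔭 ≠ ⊥) :
    ∃ ℓ : ℕ, ℓ.Prime ∧ (ℓ : 𝓞 K) ∈ 𝔭 := by
  have h1 : ((Ideal.absNorm 𝔭 : ℕ) : 𝓞 K) ∈ 𝔭 := Ideal.absNorm_mem 𝔭
  have h2 : Ideal.absNorm 𝔭 ≠ 0 := by
    rw [Ne, Ideal.absNorm_eq_zero_iff]; exact h0
  have key : ∀ n : ℕ, n ≠ 0 → (n : 𝓞 K) ∈ 𝔭 → ∃ ℓ : ℕ, ℓ.Prime ∧ (ℓ : 𝓞 K) ∈ 𝔭 := by
    intro n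
    induction n using Nat.recOnMul with
    | zero => intro h; exact absurd rfl h
    | one => intro _ h; exact absurd (by simpa using h) h𝔭.one_notMem
    | prime p hp => intro _ h; exact ⟨p, hp, h⟩
    | mul a b ha hb =>
      intro h h'
      rw [Nat.cast_mul] at h'
      rcases h𝔭.mem_or_mem h' with h' | h'
      · exact ha (fun h0 => h (by rw [h0, zero_mul])) h'
      · exact hb (fun h0 => h (by rw [h0, mul_zero])) h'
  exact key _ h2 h1

/-- a continuous character which is trivial on the kernel of `Φ` is close to `1` where `Φ` is -/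
theorem cpt {E : Type} [NontriviallyNormedField E] {Φ χ : GK j →* Eˣ} (hΦ : Continuous Φ)
    (hχ : Continuous χ) (hker : ∀ g, Φ g = 1 → χ g = 1) (ε : ℝ) (hε : 0 < ε) :
    ∃ δ : ℝ, 0 < δ ∧ ∀ g, ‖(Φ g : E) - 1‖ < δ → ‖(χ g : E) - 1‖ < ε := by
  have hcs : CompactSpace (GK j) := isCompact_iff_compactSpace.1 (H916.isClosed_GK j).isCompact
  have cχ : Continuous fun g => ‖(χ g : E) - 1‖ :=
    ((Units.continuous_val.comp hχ).sub continuous_const).norm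
  have cΦ : Continuous fun g => ‖(Φ g : E) - 1‖ :=
    ((Units.continuous_val.comp hΦ).sub continuous_const).norm
  have hC : IsCompact {g : GK j | ε ≤ ‖(χ g : E) - 1‖} :=
    (isClosed_le continuous_const cχ).isCompact
  by_cases hne : ({g : GK j | ε ≤ ‖(χ g : E) - 1‖}).Nonempty
  · obtain ⟨g₀, hg₀, hmin⟩ := hC.exists_isMinOn hne cΦ.continuousOn
    refine ⟨‖(Φ g₀ : E) - 1‖, ?_, ?_⟩
    · rw [norm_pos_iff, Ne, sub_eq_zero]
      intro h
      have h1 : Φ g₀ = 1 := Units.ext h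
      have h2 := hker g₀ h1
      have h3 : ε ≤ ‖(χ g₀ : E) - 1‖ := hg₀
      rw [h2, Units.val_one, sub_self, norm_zero] at h3
      linarith
    · intro g hg
      by_contra hcon
      push Not at hcon
      have := hmin (show g ∈ {g : GK j | ε ≤ ‖(χ g : E) - 1‖} from hcon)
      have h2 : ‖(Φ g₀ : E) - 1‖ ≤ ‖(Φ g : E) - 1‖ := this
      linarith
  · refine ⟨1, one_pos, fun g _ => ?_⟩
    by_contra hcon
    push Not at hcon
    exact hne ⟨g, hcon⟩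

end

section

variable {K : Type} [Field K] [NumberField K] [IsCyclotomicExtension {3} ℚ K] {j : K →+* Qb}
  {E : Type} [NontriviallyNormedField E] {ι : K →+* E} {Φ : GK j →* Eˣ}

omit [IsCyclotomicExtension {3} ℚ K] in
/-- the product of the Frobenius elements of a product of prime ideals prime to `6` -/
theorem prodFrob
    (hF : ∀ ℓ : ℕ, ℓ.Prime → ¬ ℓ ∣ 6 → ∀ P : Ideal (𝓞 Qb), P.IsPrime → (ℓ : 𝓞 Qb) ∈ P →
      ∀ g : GK j, (∀ x : 𝓞 Qb, (g : GQ) • x - x ^ Ideal.absNorm (below j P) ∈ P) →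
        ∃ α : 𝓞 K, (3 : 𝓞 K) ∣ α - 1 ∧ below j P = Ideal.span {α} ∧ (Φ g : E) = ι α)
    {A : Type*} [CommGroup A] (χ : GK j →* A) (f : Ideal (𝓞 K) → A)
    (hf : ∀ ℓ : ℕ, ℓ.Prime → ¬ ℓ ∣ 6 → ∀ P : Ideal (𝓞 Qb), P.IsPrime → (ℓ : 𝓞 Qb) ∈ P →
      ∀ g : GK j, (∀ x : 𝓞 Qb, (g : GQ) • x - x ^ Ideal.absNorm (below j P) ∈ P) →
        χ g = f (below j P)) (s : Multiset (Ideal (𝓞 K))) :
    (∀ 𝔭 ∈ s, 𝔭.IsPrime ∧ 𝔭 ≠ ⊥ ∧ (6 : 𝓞 K) ∉ 𝔭) →
    ∃ (g : GK j) (β : 𝓞 K), (3 : 𝓞 K) ∣ β - 1 ∧ Ideal.span {β} = s.prod ∧ (Φ g : E) = ι β ∧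
      χ g = (s.map f).prod := by
  induction s using Multiset.induction_on with
  | empty =>
    intro _
    refine ⟨1, 1, by simp, ?_, by simp, by simp⟩
    rw [Multiset.prod_zero, Ideal.span_singleton_one, Ideal.one_eq_top]
  | cons 𝔭 s ih =>
    intro hs
    obtain ⟨g', β', h1, h2, h3, h4⟩ := ih (fun 𝔮 h => hs 𝔮 (Multiset.mem_cons_of_mem h))
    obtain ⟨hp, hp0, hp6⟩ := hs 𝔭 (Multiset.mem_cons_self _ _)
    obtain ⟨ℓ, hℓ, hℓ𝔭⟩ := exists_nat 𝔭 hp hp0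
    have hℓ6 : ¬ ℓ ∣ 6 := by
      rintro ⟨c, hc⟩
      apply hp6
      have : (6 : 𝓞 K) = (ℓ : 𝓞 K) * (c : 𝓞 K) := by
        rw [← Nat.cast_mul, ← hc]; norm_num
      rw [this]
      exact Ideal.mul_mem_right _ _ hℓ𝔭
    obtain ⟨P, hP, rfl⟩ := exists_above j 𝔭 hp
    have hℓP : (ℓ : 𝓞 Qb) ∈ P := by
      have : RingOfIntegers.mapRingHom j (ℓ : 𝓞 K) ∈ P := hℓ𝔭
      rwa [map_natCast] at this
    obtain ⟨g₀, hg₀⟩ := H20.exists_frob j hP hℓ hℓP
    obtain ⟨β₀, k1, k2, k3⟩ := hF ℓ hℓ hℓ6 P hP hℓP g₀ hg₀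
    refine ⟨g₀ * g', β₀ * β', ?_, ?_, ?_, ?_⟩
    · have e : β₀ * β' - 1 = (β₀ - 1) * β' + (β' - 1) := by ring
      rw [e]
      exact dvd_add (k1.mul_right _) h1
    · rw [Multiset.prod_cons, ← h2, k2, Ideal.span_singleton_mul_span_singleton]
    · rw [map_mul, Units.val_mul, k3, h3, ← map_mul]
      rfl
    · rw [map_mul, h4, Multiset.map_cons, Multiset.prod_cons, hf ℓ hℓ hℓ6 P hP hℓP g₀ hg₀]

/-- an element `≡ 1 mod 6` -/
theorem exists_elt {ζ : K} (hζ : ζ ^ 2 + ζ + 1 = 0)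
    (hF : ∀ ℓ : ℕ, ℓ.Prime → ¬ ℓ ∣ 6 → ∀ P : Ideal (𝓞 Qb), P.IsPrime → (ℓ : 𝓞 Qb) ∈ P →
      ∀ g : GK j, (∀ x : 𝓞 Qb, (g : GQ) • x - x ^ Ideal.absNorm (below j P) ∈ P) →
        ∃ α : 𝓞 K, (3 : 𝓞 K) ∣ α - 1 ∧ below j P = Ideal.span {α} ∧ (Φ g : E) = ι α)
    {A : Type*} [CommGroup A] (χ : GK j →* A) (f : Ideal (𝓞 K) → A)
    (hf : ∀ ℓ : ℕ, ℓ.Prime → ¬ ℓ ∣ 6 → ∀ P : Ideal (𝓞 Qb), P.IsPrime → (ℓ : 𝓞 Qb) ∈ P →
      ∀ g : GK j, (∀ x : 𝓞 Qb, (g : GQ) • x - x ^ Ideal.absNorm (below j P) ∈ P) →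
        χ g = f (below j P)) {α : 𝓞 K} (hα : (6 : 𝓞 K) ∣ α - 1) (hα0 : α ≠ 0) :
    ∃ g : GK j, (Φ g : E) = ι α ∧
      χ g = ((normalizedFactors (Ideal.span {α})).map f).prod := by
  have hne : Ideal.span {α} ≠ ⊥ := by simpa using hα0
  obtain ⟨g, β, h1, h2, h3, h4⟩ := prodFrob hF χ f hf (normalizedFactors (Ideal.span {α})) (by
    intro 𝔭 h𝔭
    have hp := prime_of_normalized_factor 𝔭 h𝔭
    have h0 : 𝔭 ≠ ⊥ := hp.ne_zero
    have hpr : 𝔭.IsPrime := Ideal.isPrime_of_prime hp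
    refine ⟨hpr, h0, fun h6 => hpr.one_notMem ?_⟩
    have hα𝔭 : α ∈ 𝔭 := by
      have h1 := dvd_of_mem_normalizedFactors h𝔭
      rw [Ideal.dvd_span_singleton] at h1
      exact h1
    obtain ⟨c, hc⟩ := hα
    have e : (1 : 𝓞 K) = α - 6 * c := by rw [← hc]; ring
    rw [e]
    exact 𝔭.sub_mem hα𝔭 (Ideal.mul_mem_right _ _ h6))
  rw [Ideal.prod_normalizedFactors_eq_self hne] at h2
  have h3α : (3 : 𝓞 K) ∣ α - 1 := dvd_trans ⟨2, by norm_num⟩ hα
  have hβ : β = α := kUniq hζ h1 h3α h2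
  rw [hβ] at h3
  exact ⟨g, h3, h4⟩

end

/-- `g` fixes all the points of `2`-power order of the curve `y² = x³ + 16` over `ℚ̄` -/
def FixTors [DecidableEq Qb] (h6 : (6 : Qb) * ((16 : ℤ) : Qb) ≠ 0) (g : GQ) : Prop :=
  ∀ (n : ℕ) (Q : Pt ((16 : ℤ) : Qb)), (2 ^ n : ℕ) • Q = 0 → gact 16 h6 g Q = Q

/-- **`K = ℚ(√-3)`**: there is a continuous character `Φ` of `G_K` (the action on the points of
`2`-power order of `y² = x³ + 16`) such that every representation induced from a continuous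
character of `G_K` which factors through `Φ` is odd and occurs at level `27` -/
theorem cmFam (hM : MAIN1Stmt) [DecidableEq Qb] (K : Type) [Field K] [NumberField K]
    [IsCyclotomicExtension {3} ℚ K] (j : K →+* Qb)
    (E' : Type) [NontriviallyNormedField E'] [NormedAlgebra ℚ_[2] E'] [IsUltrametricDist E']
    [FiniteDimensional ℚ_[2] E'] (ι : K →+* E') (h6 : (6 : Qb) * ((16 : ℤ) : Qb) ≠ 0) :
    ∃ Φ : GK j →* E'ˣ, Continuous Φ ∧ (∀ g : GK j, Φ g = 1 ↔ FixTors h6 g) ∧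
      (∀ α : 𝓞 K, (6 : 𝓞 K) ∣ α - 1 → ∃ g : GK j, (Φ g : E') = ι α) ∧
      ∀ χ : GK j →* E'ˣ, Continuous χ → (∀ g : GK j, Φ g = 1 → χ g = 1) →
        ∀ (E : Type) [NontriviallyNormedField E] [NormedAlgebra ℚ_[2] E]
          [FiniteDimensional ℚ_[2] E] [NormedAlgebra E E'] [IsScalarTower ℚ_[2] E E']
          (r : GQ →* GL (Fin 2) E), IsInd j χ (bc E' r) →
          OddRep r ∧ Occurs E 27 r ∧ Q1Concl E r := by
  classical
  have : Algebra.IsQuadraticExtension ℚ K := kQuad K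
  have : NumberField.IsTotallyComplex K := kTC K
  obtain ⟨ζ, hζp⟩ := IsCyclotomicExtension.exists_isPrimitiveRoot ℚ K
    (S := {3}) (n := 3) (Set.mem_singleton 3) (by norm_num)
  have hζ : ζ ^ 2 + ζ + 1 = 0 := by
    have h1 := hζp.isRoot_cyclotomic (by norm_num)
    rw [Polynomial.cyclotomic_three] at h1
    simpa [Polynomial.IsRoot.def] using h1
  have hw : (j ζ) ^ 2 + j ζ + 1 = 0 := by
    have := congrArg j hζ
    simpa using this
  obtain ⟨Φ, hΦ, hA, hF⟩ := H119.CM.attX' K ζ hζ (kInt hζ) E' ι j h6 hw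
  have hF2 : ∀ ℓ : ℕ, ℓ.Prime → ¬ ℓ ∣ 6 → ∀ P : Ideal (𝓞 Qb), P.IsPrime → (ℓ : 𝓞 Qb) ∈ P →
      ∀ g : GK j, (∀ x : 𝓞 Qb, (g : GQ) • x - x ^ Ideal.absNorm (below j P) ∈ P) →
        ∃ α : 𝓞 K, (3 : 𝓞 K) ∣ α - 1 ∧ below j P = Ideal.span {α} ∧ (Φ g : E') = ι α :=
    fun ℓ h1 h2 P h3 h4 g => (hF ℓ h1 h2 P h3 h4 g).2
  have hone : ∀ g : GK j, Φ g = 1 ↔ FixTors h6 g := by
    intro g
    constructor
    · intro hg n Q hQ
      obtain ⟨x, y, h1, h2⟩ := hA g n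
      rw [hg, Units.val_one] at h1
      have e : (1 : E') - ι (x + y * ζ) = ι (((1 - x : ℤ) : K) + ((-y : ℤ) : K) * ζ) := by
        rw [← map_one ι, ← map_sub]
        congr 1
        push_cast; ring
      rw [e] at h1
      obtain ⟨h3, h4⟩ := nDvd hζ ι n _ _ h1
      rw [h2 Q hQ]
      have h5 : en h6 (j ζ) hw (1 - x) (-y) Q = 0 :=
        en_dvd h6 (j ζ) hw h3 h4 (by
          have := hQ
          rw [← natCast_zsmul] at this
          exact_mod_cast this)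
      have h6' : en h6 (j ζ) hw (1 - x) (0 - y) Q = Q - en h6 (j ζ) hw x y Q := by
        rw [en_sub, AddMonoidHom.sub_apply]
        congr 1
        rw [en_apply, one_smul, zero_smul, add_zero]
      rw [zero_sub, h5] at h6'
      exact (sub_eq_zero.1 h6'.symm).symm
    · intro hg
      apply Units.ext
      rw [Units.val_one, ← sub_eq_zero]
      obtain ⟨P, hP0, hP2, -, hPann⟩ := H732.TOR Qb ((16 : ℤ) : Qb) h6 (j ζ) hw
      have hPn : ∀ n, (2 ^ n : ℕ) • P n = 0 := by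
        intro n
        induction n with
        | zero => rw [hP0, smul_zero]
        | succ k ih => rw [pow_succ, mul_smul, hP2, ih]
      have h2 : ‖(2 : E')‖ < 1 := nTwo
      have hz : ∀ n : ℕ, ‖(Φ g : E') - 1‖ ≤ ‖(2 : E')‖ ^ n := by
        intro n
        obtain ⟨x, y, h1, h2'⟩ := hA g n
        have h3 := h2' (P n) (hPn n)
        rw [hg n (P n) (hPn n)] at h3
        have h4 : en h6 (j ζ) hw (x - 1) (y - 0) (P n) = 0 := by
          rw [en_sub, AddMonoidHom.sub_apply, ← h3]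
          rw [en_apply, one_smul, zero_smul, add_zero, sub_self]
        obtain ⟨h5, h7⟩ := hPann n _ _ h4
        have h8 : ‖ι (((x - 1 : ℤ) : K) + ((y - 0 : ℤ) : K) * ζ)‖ ≤ ‖(2 : E')‖ ^ n :=
          H553.CM.norm_dvd hζ ι h5 h7
        have e : (Φ g : E') - 1 = ((Φ g : E') - ι (x + y * ζ)) +
            ι (((x - 1 : ℤ) : K) + ((y - 0 : ℤ) : K) * ζ) := by
          have : ι (((x - 1 : ℤ) : K) + ((y - 0 : ℤ) : K) * ζ) = ι (x + y * ζ) - 1 := by
            rw [← map_one ι, ← map_sub]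
            congr 1
            push_cast; ring
          rw [this]; ring
        rw [e]
        exact (IsUltrametricDist.norm_add_le_max _ _).trans (max_le h1 h8)
      rw [← norm_le_zero_iff]
      exact ge_of_tendsto' (tendsto_pow_atTop_nhds_zero_of_lt_one (norm_nonneg _) h2) hz
  have hinv : ∀ α : 𝓞 K, (6 : 𝓞 K) ∣ α - 1 → α ≠ 0 := by
    rintro α ⟨c, hc⟩ rfl
    obtain ⟨a, b, hab⟩ := kInt hζ c
    have h1 := congrArg (algebraMap (𝓞 K) K) hc
    rw [map_mul, map_sub, map_zero, map_one, map_ofNat, show algebraMap (𝓞 K) K c = a + b * ζ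
      from hab] at h1
    have h3 : ‖ι (((6 * a : ℤ) : K) + ((6 * b : ℤ) : K) * ζ)‖ ≤ ‖(2 : E')‖ ^ 1 :=
      H553.CM.norm_dvd hζ ι ⟨3 * a, by ring⟩ ⟨3 * b, by ring⟩
    have h4 : ((6 * a : ℤ) : K) + ((6 * b : ℤ) : K) * ζ = -1 := by
      push_cast
      linear_combination -h1
    rw [h4, map_neg, norm_neg, map_one, norm_one, pow_one] at h3
    have := nTwo (E := E')
    linarith
  refine ⟨Φ, hΦ, hone, ?_, ?_⟩
  · intro α hα
    obtain ⟨g, h1, -⟩ := exists_elt hζ hF2 (1 : GK j →* Unit) (fun _ => 1)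
      (by intros; rfl) hα (hinv α hα)
    exact ⟨g, h1⟩
  · intro χ hχ hker E _ _ _ _ _ r hr
    have hunr : H494.UnrOut j χ 54 := by
      intro ℓ hℓ hℓB P hP hℓP g hg
      apply hker
      exact (hF ℓ hℓ (fun h => hℓB (h.trans ⟨9, by norm_num⟩)) P hP hℓP g).1 hg
    have hcs : CompactSpace (GK j) := isCompact_iff_compactSpace.1 (H916.isClosed_GK j).isCompact
    obtain ⟨f, ψ, hf1, hf2, hf3, hf4, hatt⟩ := H494.psi_of j χ (H916.norm_char hχ) 54 hunr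
    have hcont : Cont ι 3 ψ := by
      intro ε hε
      obtain ⟨δ, hδ, hδ'⟩ := cpt j hΦ hχ hker ε hε
      have h20 : (0 : ℝ) < ‖(2 : E')‖ := by
        rw [norm_pos_iff]
        have : CharZero E' := charZero_of_injective_algebraMap (algebraMap ℚ_[2] E').injective
        exact two_ne_zero
      refine ⟨min δ ‖(2 : E')‖, lt_min hδ h20, ?_⟩
      intro α hα3 hα
      have hα3' : (3 : 𝓞 K) ∣ α - 1 := by exact_mod_cast hα3
      have hα1 := lt_of_lt_of_le hα (min_le_left _ _)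
      have hα2 := (lt_of_lt_of_le hα (min_le_right _ _)).le
      -- `α ≡ 1 mod 2`
      have h2α : (2 : 𝓞 K) ∣ α - 1 := by
        obtain ⟨a, b, hab⟩ := kInt hζ (α - 1)
        have hab' : ((α : K) - 1) = a + b * ζ := by rw [← hab]; rfl
        rw [← map_one ι, ← map_sub, hab'] at hα2
        obtain ⟨⟨a', ha'⟩, ⟨b', hb'⟩⟩ := nDvd hζ ι 1 a b (by rwa [pow_one])
        have hζi : IsIntegral ℤ ζ := hζp.isIntegral (by norm_num)
        refine ⟨(a' : 𝓞 K) + (b' : 𝓞 K) * ⟨ζ, hζi⟩, ?_⟩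
        apply RingOfIntegers.ext
        show ((α : K) - 1) = 2 * ((a' : K) + (b' : K) * ζ)
        rw [hab', ha', hb']
        push_cast; ring
      have h6α : (6 : 𝓞 K) ∣ α - 1 := by
        obtain ⟨c, hc⟩ := hα3'
        obtain ⟨d, hd⟩ := h2α
        exact ⟨d - c, by linear_combination 3 * hd - 2 * hc⟩
      have hα0 := hinv α h6α
      obtain ⟨g, h1, h2⟩ := exists_elt hζ hF2 χ f
        (fun ℓ h1 h2 P h3 h4 g h5 => hf2 ℓ h1 (fun h => h2 (by
          have : ℓ ∣ 2 * 3 ^ 3 := by norm_num; exact h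
          rcases (Nat.Prime.dvd_mul h1).1 this with h' | h'
          · exact h'.trans ⟨3, by norm_num⟩
          · exact (h1.dvd_of_dvd_pow h').trans ⟨2, by norm_num⟩)) P h3 h4 g h5) h6α hα0
      have h3 : ψ (Ideal.span {α}) = (χ g : E') := by
        rw [hf3 _ (by simpa using hα0), h2, ← Units.coeHom_apply, map_multiset_prod,
          Multiset.map_map]
        rfl
      rw [h3]
      apply hδ'
      rw [h1]
      exact hα1
    have hNZ : NeZero (3 * 3 ^ 2) := ⟨by norm_num⟩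
    have := H20.fin1 hM K 3 (kDisc K) (by decide) E E' ι 3 (by decide) ψ hcont j χ hatt r hr
    obtain ⟨h1, h2, h3⟩ := this
    refine ⟨h1, h2, h3 ?_⟩
    intro p hp hp3 hu
    have hp3' : p = 3 := (Nat.prime_dvd_prime_iff_eq hp Nat.prime_three).1 hp3
    subst hp3'
    exact H916.ramified_of_dvd_discr j (kFin K) hr hp (by rw [kDisc]; exact ⟨-1, by norm_num⟩)
      (H20.bc_unrAt.2 hu)

end Vale.Agent.P022.CM
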