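import Vale.Agent.P267.H775.Gauss
import Mathlib.Analysis.Calculus.ParametricIntegral

/-!
The Fourier transform of `z^κ exp (π i τ |z|²)` on the plane, and Poisson summation for it.
-/

open MeasureTheory Set Complex TopologicalSpace Filter Matrix
open scoped Real Topology
open Vale.Agent.P267.H775

namespace Vale.Agent.P022.H420

noncomputable section

set_option linter.unusedSectionVars false

/-- complex coordinate of a vector of the plane -/
def zc (y : Fin 2 → ℝ) : ℂ := (y 0 : ℂ) + (y 1 : ℂ) * I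

lemma continuous_zc : Continuous zc := by
  unfold zc
  fun_prop

lemma norm_zc_sq (y : Fin 2 → ℝ) : ‖zc y‖ ^ 2 = ∑ i, y i ^ 2 := by
  rw [← Complex.normSq_eq_norm_sq, zc, Complex.normSq_add_mul_I, Fin.sum_univ_two]

lemma qf_eq_norm (M : Matrix (Fin 2) (Fin 2) ℝ) (x : Fin 2 → ℝ) :
    qf M x = ‖zc (M *ᵥ x)‖ ^ 2 := by
  rw [norm_zc_sq]; rfl

/-- powers and exponentials are absorbed by the Gaussian -/
lemma absorb (κ : ℕ) (A : ℝ) {T : ℝ} (hT : 0 < T) : ∃ C : ℝ, 0 ≤ C ∧ ∀ r : ℝ, 0 ≤ r →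
    r ^ κ * Real.exp (A * r) * Real.exp (-π * T * r ^ 2) ≤
      C * Real.exp (-π * (T / 2) * r ^ 2) := by
  refine ⟨(κ.factorial : ℝ) * Real.exp ((A + 1) ^ 2 / (2 * π * T)), by positivity, fun r hr => ?_⟩
  have hf : (0 : ℝ) < κ.factorial := by exact_mod_cast Nat.factorial_pos κ
  have h1 : r ^ κ ≤ κ.factorial * Real.exp r := by
    have := Real.pow_div_factorial_le_exp r hr κ
    rwa [div_le_iff₀' hf] at this
  have hπT : 0 < π * T := mul_pos Real.pi_pos hT
  have h2 : (A + 1) * r - π * T * r ^ 2 ≤ (A + 1) ^ 2 / (2 * π * T) - π * (T / 2) * r ^ 2 := by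
    have h3 : (A + 1) ^ 2 / (2 * π * T) = (π * T / 2) * ((A + 1) / (π * T)) ^ 2 := by
      field_simp
    have h4 : (A + 1) = (π * T) * ((A + 1) / (π * T)) := by field_simp
    rw [h3]
    set B := (A + 1) / (π * T) with hB
    rw [h4]
    nlinarith [mul_nonneg hπT.le (sq_nonneg (r - B))]
  calc r ^ κ * Real.exp (A * r) * Real.exp (-π * T * r ^ 2)
      ≤ (κ.factorial * Real.exp r) * Real.exp (A * r) * Real.exp (-π * T * r ^ 2) := by
        gcongr
    _ = κ.factorial * Real.exp ((A + 1) * r - π * T * r ^ 2) := by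
        rw [mul_assoc, mul_assoc, ← Real.exp_add, ← Real.exp_add]
        congr 2
        ring
    _ ≤ κ.factorial * Real.exp ((A + 1) ^ 2 / (2 * π * T) - π * (T / 2) * r ^ 2) := by
        gcongr
    _ = _ := by
        rw [mul_assoc (κ.factorial : ℝ), ← Real.exp_add]
        congr 2
        ring

/-- the integrand -/
def gi (τ : ℂ) (c : Fin 2 → ℂ) (κ : ℕ) (u : ℂ) (y : Fin 2 → ℝ) : ℂ :=
  zc y ^ κ * cexp (u * zc y + (-(-(π * I * τ)) * ∑ i, (y i : ℂ) ^ 2 + ∑ i, c i * y i))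

lemma continuous_gi (τ : ℂ) (c : Fin 2 → ℂ) (κ : ℕ) (u : ℂ) : Continuous (gi τ c κ u) := by
  have := continuous_zc
  unfold gi
  fun_prop

lemma norm_gi_le (τ : ℂ) (c : Fin 2 → ℂ) (κ : ℕ) (u : ℂ) (y : Fin 2 → ℝ) :
    ‖gi τ c κ u y‖ ≤ ‖zc y‖ ^ κ * Real.exp ((‖u‖ + (‖c 0‖ + ‖c 1‖)) * ‖zc y‖) *
      Real.exp (-π * τ.im * ‖zc y‖ ^ 2) := by
  unfold gi
  rw [norm_mul, norm_pow, mul_assoc (‖zc y‖ ^ κ), ← Real.exp_add, Complex.norm_exp]
  have h1 : (u * zc y).re ≤ ‖u‖ * ‖zc y‖ := by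
    rw [← norm_mul]; exact Complex.re_le_norm _
  have h2 : (-(-(π * I * τ)) * ∑ i, (y i : ℂ) ^ 2 : ℂ).re = -π * τ.im * ‖zc y‖ ^ 2 := by
    rw [norm_zc_sq]
    have : (-(-(π * I * τ)) * ∑ i, (y i : ℂ) ^ 2 : ℂ) =
        ((π * ∑ i, y i ^ 2 : ℝ) : ℂ) * (I * τ) := by
      push_cast; ring
    rw [this, Complex.re_ofReal_mul]
    simp
    ring
  have hy : ∀ i, |y i| ≤ ‖zc y‖ := by
    intro i
    refine abs_le_of_sq_le_sq ?_ (norm_nonneg _) |> fun h => h
    rw [norm_zc_sq]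
    exact Finset.single_le_sum (f := fun i => y i ^ 2) (fun j _ => sq_nonneg _) (Finset.mem_univ i)
  have h3 : (∑ i, c i * y i : ℂ).re ≤ (‖c 0‖ + ‖c 1‖) * ‖zc y‖ := by
    refine (Complex.re_le_norm _).trans ?_
    rw [Fin.sum_univ_two]
    refine (norm_add_le _ _).trans ?_
    rw [norm_mul, norm_mul, Complex.norm_real, Complex.norm_real, Real.norm_eq_abs,
      Real.norm_eq_abs, add_mul]
    have := hy 0
    have := hy 1
    gcongr
  refine mul_le_mul_of_nonneg_left (Real.exp_le_exp.2 ?_) (by positivity)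
  rw [Complex.add_re, Complex.add_re, h2]
  nlinarith

lemma integrable_bound {T : ℝ} (hT : 0 < T) (C : ℝ) :
    Integrable (fun y : Fin 2 → ℝ => C * Real.exp (-π * T * ‖zc y‖ ^ 2)) := by
  have h1 : 0 < (I * (T : ℂ)).im := by simpa using hT
  have h := ((integrable_gau (1 : Matrix (Fin 2) (Fin 2) ℝ) (by simp) h1).norm).const_mul C
  refine h.congr (Eventually.of_forall fun y => ?_)
  simp only [norm_gau, qf_eq_norm, one_mulVec]
  simp

lemma integrable_gi {τ : ℂ} (hτ : 0 < τ.im) (c : Fin 2 → ℂ) (κ : ℕ) (u : ℂ) :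
    Integrable (gi τ c κ u) := by
  obtain ⟨C, hC0, hC⟩ := absorb κ (‖u‖ + (‖c 0‖ + ‖c 1‖)) hτ
  refine (integrable_bound (half_pos hτ) C).mono' (continuous_gi τ c κ u).aestronglyMeasurable ?_
  exact Eventually.of_forall fun y => (norm_gi_le τ c κ u y).trans (hC _ (norm_nonneg _))

/-- The Fourier-Laplace transform of `z^κ exp(u z) exp (π i τ |z|²)`. -/
theorem integral_gi {τ : ℂ} (hτ : 0 < τ.im) (c : Fin 2 → ℂ) (κ : ℕ) : ∀ u : ℂ,
    ∫ y, gi τ c κ u y = (I / τ) * ((c 0 + c 1 * I) / (-(2 * π * I * τ))) ^ κ *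
      cexp ((∑ i, c i ^ 2 + 2 * u * (c 0 + c 1 * I)) / (-(4 * π * I * τ))) := by
  have hτ0 : τ ≠ 0 := by rintro rfl; simp at hτ
  have hπ : (π : ℂ) ≠ 0 := by exact_mod_cast Real.pi_ne_zero
  induction κ with
  | zero =>
    intro u
    have h2 := GaussianFourier.integral_cexp_neg_mul_sum_add (ι := Fin 2) (neg_I_mul_re τ hτ)
      (fun i => c i + u * (if i = 0 then 1 else I))
    have e1 : ∀ y : Fin 2 → ℝ, gi τ c 0 u y = cexp (-(-(π * I * τ)) * ∑ i, (y i : ℂ) ^ 2 +
        ∑ i, (c i + u * (if i = 0 then 1 else I)) * y i) := by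
      intro y
      unfold gi zc
      rw [pow_zero, one_mul]
      congr 1
      simp only [Fin.sum_univ_two]
      simp
      ring
    simp_rw [e1]
    rw [h2]
    rw [pow_zero, mul_one]
    congr 1
    · simp only [Fintype.card_fin]
      rw [show ((2 : ℕ) : ℂ) / 2 = 1 by norm_num, cpow_one]
      field_simp
      rw [I_sq]
    · congr 1
      simp only [Fin.sum_univ_two]
      simp only [if_true, Fin.isValue, one_ne_zero, if_false]
      rw [show (c 0 + u * 1) ^ 2 + (c 1 + u * I) ^ 2 = c 0 ^ 2 + c 1 ^ 2 +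
        2 * u * (c 0 + c 1 * I) + u ^ 2 * (1 + I ^ 2) by ring, I_sq]
      congr 1
      · ring
      · ring
  | succ κ ih =>
    intro u
    -- differentiate
    have hd : HasDerivAt (fun v : ℂ => ∫ y, gi τ c κ v y) (∫ y, gi τ c (κ + 1) u y) u := by
      obtain ⟨C, hC0, hC⟩ := absorb (κ + 1) (‖u‖ + 1 + (‖c 0‖ + ‖c 1‖)) hτ
      refine (hasDerivAt_integral_of_dominated_loc_of_deriv_le (𝕜 := ℂ)
        (F := fun v y => gi τ c κ v y) (F' := fun v y => gi τ c (κ + 1) v y)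
        (bound := fun y => C * Real.exp (-π * (τ.im / 2) * ‖zc y‖ ^ 2))
        (Metric.ball_mem_nhds u one_pos) ?_ (integrable_gi hτ c κ u)
        (continuous_gi τ c (κ + 1) u).aestronglyMeasurable ?_
        (integrable_bound (half_pos hτ) C) ?_).2
      · exact Eventually.of_forall fun v => (continuous_gi τ c κ v).aestronglyMeasurable
      · refine Eventually.of_forall fun y v hv => ?_
        refine (norm_gi_le τ c (κ + 1) v y).trans (le_trans ?_ (hC _ (norm_nonneg _)))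
        have hv' : ‖v‖ ≤ ‖u‖ + 1 := by
          have h5 : ‖v - u‖ < 1 := by simpa [dist_eq_norm] using hv
          have h6 := norm_le_norm_add_norm_sub' v u
          linarith [norm_sub_rev v u]
        gcongr
      · refine Eventually.of_forall fun y v _ => ?_
        unfold gi
        have h7 : HasDerivAt (fun v : ℂ => cexp (v * zc y +
            (-(-(π * I * τ)) * ∑ i, (y i : ℂ) ^ 2 + ∑ i, c i * y i)))
            (cexp (v * zc y + (-(-(π * I * τ)) * ∑ i, (y i : ℂ) ^ 2 + ∑ i, c i * y i)) *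
              (1 * zc y)) v :=
          (((hasDerivAt_id v).mul_const (zc y)).add_const _).cexp
        have h8 := h7.const_mul (zc y ^ κ)
        refine h8.congr_deriv ?_
        rw [pow_succ]
        ring
    have hd2 : HasDerivAt (fun v : ℂ => ∫ y, gi τ c κ v y)
        ((I / τ) * ((c 0 + c 1 * I) / (-(2 * π * I * τ))) ^ κ *
          (cexp ((∑ i, c i ^ 2 + 2 * u * (c 0 + c 1 * I)) / (-(4 * π * I * τ))) *
            (2 * 1 * (c 0 + c 1 * I) / (-(4 * π * I * τ))))) u := by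
      have h9 : (fun v : ℂ => ∫ y, gi τ c κ v y) = fun v =>
          (I / τ) * ((c 0 + c 1 * I) / (-(2 * π * I * τ))) ^ κ *
          cexp ((∑ i, c i ^ 2 + 2 * v * (c 0 + c 1 * I)) / (-(4 * π * I * τ))) := by
        funext v; exact ih v
      rw [h9]
      have h10 : HasDerivAt (fun v : ℂ => (∑ i, c i ^ 2 + 2 * v * (c 0 + c 1 * I)) /
          (-(4 * π * I * τ))) (2 * 1 * (c 0 + c 1 * I) / (-(4 * π * I * τ))) u :=
        (((((hasDerivAt_id u).const_mul 2).mul_const (c 0 + c 1 * I))).const_add _).div_const _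
      exact h10.cexp.const_mul _
    rw [hd.unique hd2, pow_succ]
    have h11 : (2 * 1 * (c 0 + c 1 * I) / (-(4 * π * I * τ)) : ℂ) =
        (c 0 + c 1 * I) / (-(2 * π * I * τ)) := by
      field_simp
      ring
    rw [h11]
    ring

end

end Vale.Agent.P022.H420
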