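import Vale.Agent.P022.H420.PoiA

/-!
Poisson summation for `z^κ exp (π i τ |z|²)` with a periodic weight.
-/

open MeasureTheory Set Complex TopologicalSpace Filter Matrix
open scoped Real Topology
open Vale.Agent.P267.H775

namespace Vale.Agent.P022.H420

noncomputable section

set_option linter.unusedSectionVars false

/-- `z^κ` times the Gaussian -/
def pg (M : Matrix (Fin 2) (Fin 2) ℝ) (κ : ℕ) (τ : ℂ) : C(Fin 2 → ℝ, ℂ) where
  toFun x := zc (M *ᵥ x) ^ κ * gau M τ x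
  continuous_toFun := by
    have h1 := continuous_zc
    have h2 := (gau M τ).continuous
    fun_prop

lemma pg_apply (M : Matrix (Fin 2) (Fin 2) ℝ) (κ : ℕ) (τ : ℂ) (x : Fin 2 → ℝ) :
    pg M κ τ x = zc (M *ᵥ x) ^ κ * gau M τ x := rfl

lemma norm_pg_le (M : Matrix (Fin 2) (Fin 2) ℝ) (κ : ℕ) {τ : ℂ} (hτ : 0 < τ.im) :
    ∃ C : ℝ, 0 ≤ C ∧ ∀ x, ‖pg M κ τ x‖ ≤ C * Real.exp (-π * (τ.im / 2) * qf M x) := by
  obtain ⟨C, hC0, hC⟩ := absorb κ 0 hτ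
  refine ⟨C, hC0, fun x => ?_⟩
  have := hC _ (norm_nonneg (zc (M *ᵥ x)))
  rw [zero_mul, Real.exp_zero, mul_one, ← qf_eq_norm] at this
  rw [pg_apply, norm_mul, norm_pow, norm_gau]
  exact this

lemma locSum_pg (M : Matrix (Fin 2) (Fin 2) ℝ) (hM : M.det ≠ 0) (κ : ℕ) {τ : ℂ}
    (hτ : 0 < τ.im) : LocSum (pg M κ τ) := by
  intro K
  obtain ⟨R, hR⟩ := K.isCompact.isBounded.exists_norm_le
  obtain ⟨u, hu0, hu, hle⟩ := exists_bound M hM R (τ.im / 2) (half_pos hτ)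
  obtain ⟨C, hC0, hC⟩ := norm_pg_le M κ hτ
  refine Summable.of_norm_bounded (hu.mul_left C) fun n => ?_
  rw [norm_norm, ContinuousMap.norm_le _ (mul_nonneg hC0 (hu0 n))]
  rintro ⟨x, hx⟩
  have : ‖pg M κ τ (x + toR n)‖ ≤ C * u n := by
    refine (hC _).trans (mul_le_mul_of_nonneg_left ?_ hC0)
    exact hle n x fun i => (norm_le_pi_norm x i).trans (hR x hx)
  exact this

lemma integrable_pg (M : Matrix (Fin 2) (Fin 2) ℝ) (hM : M.det ≠ 0) (κ : ℕ) {τ : ℂ}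
    (hτ : 0 < τ.im) : Integrable (pg M κ τ : (Fin 2 → ℝ) → ℂ) := by
  obtain ⟨C, hC0, hC⟩ := norm_pg_le M κ hτ
  have h1 : 0 < (I * ((τ.im / 2 : ℝ) : ℂ)).im := by simpa using hτ
  have h := ((integrable_gau M hM h1).norm).const_mul C
  refine h.mono' (pg M κ τ).continuous.aestronglyMeasurable ?_
  refine Eventually.of_forall fun y => ?_
  rw [norm_gau]
  simpa using hC y

lemma norm_fc_bound (M : Matrix (Fin 2) (Fin 2) ℝ) (hM : M.det ≠ 0) (κ : ℕ) {τ : ℂ}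
    (hτ : 0 < τ.im) : Summable fun k : Fin 2 → ℤ => ‖pg M κ τ (toR k)‖ := by
  have h := locSum_pg M hM κ hτ ⟨{0}, isCompact_singleton⟩
  refine Summable.of_nonneg_of_le (fun _ => norm_nonneg _) (fun n => ?_) h
  have := norm_le_restrict (trans (pg M κ τ) n) ⟨{0}, isCompact_singleton⟩
    (x := 0) (Set.mem_singleton 0)
  rwa [trans_apply, zero_add] at this

/-- Fourier transform of `z^κ` times the Gaussian. -/
lemma fc_pg (M : Matrix (Fin 2) (Fin 2) ℝ) (hM : M.det ≠ 0) (κ : ℕ) {τ : ℂ} (hτ : 0 < τ.im)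
    (k : Fin 2 → ℤ) :
    fc (pg M κ τ) k = (|M.det|⁻¹ : ℝ) * (I / τ) * (1 / τ) ^ κ *
      (zc ((M⁻¹)ᵀ *ᵥ toR k) ^ κ * cexp (π * I * (-1 / τ) * (qf (M⁻¹)ᵀ (toR k) : ℝ))) := by
  have hτ0 : τ ≠ 0 := by rintro rfl; simp at hτ
  have hπ : (π : ℂ) ≠ 0 := by exact_mod_cast Real.pi_ne_zero
  set c : Fin 2 → ℂ := fun i => -(2 * π * I) * (((M⁻¹)ᵀ *ᵥ toR k) i : ℝ) with hc
  have hmap := Real.map_matrix_volume_pi_eq_smul_volume_pi hM
  have hme : Measurable (toLin' M : (Fin 2 → ℝ) → (Fin 2 → ℝ)) :=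
    (LinearMap.continuous_on_pi (toLin' M)).measurable
  have h1 : ∀ x : Fin 2 → ℝ, chr (-k) x * pg M κ τ x = gi τ c κ 0 (toLin' M x) := by
    intro x
    rw [pg_apply, gau_apply, chr, gi, zero_mul, zero_add, mul_left_comm, ← Complex.exp_add,
      toLin'_apply]
    congr 2
    have e1 : (π * I * τ * (qf M x : ℝ) : ℂ) =
        -(-(π * I * τ)) * ∑ i, (((M *ᵥ x) i : ℝ) : ℂ) ^ 2 := by
      simp only [qf]
      push_cast
      ring
    have e2 : (2 * π * I * ∑ i, (((-k) i : ℤ) : ℂ) * (x i : ℂ)) =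
        ∑ i, c i * (((M *ᵥ x) i : ℝ) : ℂ) := by
      have e3 : ∑ i, ((M⁻¹)ᵀ *ᵥ toR k) i * (M *ᵥ x) i = ∑ i, toR k i * x i := by
        have : ((M⁻¹)ᵀ *ᵥ toR k) ⬝ᵥ (M *ᵥ x) = toR k ⬝ᵥ x := by
          rw [mulVec_transpose, ← dotProduct_mulVec, mulVec_mulVec,
            nonsing_inv_mul _ (isUnit_iff_ne_zero.2 hM), one_mulVec]
        exact this
      have e4 : (∑ i, (k i : ℂ) * (x i : ℂ)) =
          ((∑ i, ((M⁻¹)ᵀ *ᵥ toR k) i * (M *ᵥ x) i : ℝ) : ℂ) := by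
        rw [e3]; push_cast; rfl
      have e5 : (∑ i, (((-k) i : ℤ) : ℂ) * (x i : ℂ)) = - ∑ i, (k i : ℂ) * (x i : ℂ) := by
        rw [← Finset.sum_neg_distrib]
        refine Finset.sum_congr rfl fun i _ => ?_
        simp
      rw [e5, e4]
      simp only [hc]
      push_cast
      rw [mul_neg, Finset.mul_sum, ← Finset.sum_neg_distrib]
      refine Finset.sum_congr rfl fun i _ => ?_
      ring
    rw [e1, e2, add_comm]
  unfold fc
  simp_rw [h1]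
  rw [← integral_map (φ := (toLin' M : (Fin 2 → ℝ) → (Fin 2 → ℝ))) (f := gi τ c κ 0)
    hme.aemeasurable (continuous_gi τ c κ 0).aestronglyMeasurable, hmap, integral_smul_measure,
    integral_gi hτ c κ 0]
  rw [ENNReal.toReal_ofReal (abs_nonneg _), abs_inv, Complex.real_smul]
  have e6 : (c 0 + c 1 * I) / (-(2 * π * I * τ)) = (1 / τ) * zc ((M⁻¹)ᵀ *ᵥ toR k) := by
    simp only [hc, zc]
    field_simp
    ring
  have e7 : ∑ i, c i ^ 2 = -(4 * π ^ 2) * (qf (M⁻¹)ᵀ (toR k) : ℝ) := by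
    simp only [hc, qf]
    push_cast
    rw [Finset.mul_sum]
    refine Finset.sum_congr rfl fun i _ => ?_
    ring_nf
    simp
  have e8 : (∑ i, c i ^ 2 + 2 * 0 * (c 0 + c 1 * I)) / (-(4 * π * I * τ)) =
      π * I * (-1 / τ) * (qf (M⁻¹)ᵀ (toR k) : ℝ) := by
    rw [e7]
    field_simp
    ring_nf
    simp
  rw [e6, e8, mul_pow]
  ring

/-- Poisson summation for `z^κ` times the Gaussian. -/
theorem poi_pg (M : Matrix (Fin 2) (Fin 2) ℝ) (hM : M.det ≠ 0) (κ : ℕ) {τ : ℂ} (hτ : 0 < τ.im)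
    (x : Fin 2 → ℝ) :
    HasSum (fun k : Fin 2 → ℤ => ((|M.det|⁻¹ : ℝ) * (I / τ) * (1 / τ) ^ κ *
      (zc ((M⁻¹)ᵀ *ᵥ toR k) ^ κ * cexp (π * I * (-1 / τ) * (qf (M⁻¹)ᵀ (toR k) : ℝ)))) * chr k x)
      (∑' n : Fin 2 → ℤ, pg M κ τ (x + toR n)) := by
  have hτ0 : τ ≠ 0 := by rintro rfl; simp at hτ
  have him : 0 < (-1 / τ : ℂ).im := by
    rw [neg_div, one_div, neg_im, inv_im, neg_div, neg_neg]
    exact div_pos hτ (normSq_pos.2 hτ0)
  have hdet' : ((M⁻¹)ᵀ).det ≠ 0 := by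
    rw [det_transpose, det_nonsing_inv, Ring.inverse_eq_inv']
    exact inv_ne_zero hM
  have hs : Summable (fc (pg M κ τ : (Fin 2 → ℝ) → ℂ)) := by
    have h1 := (norm_fc_bound (M⁻¹)ᵀ hdet' κ him).of_norm.mul_left
      ((|M.det|⁻¹ : ℝ) * (I / τ) * (1 / τ) ^ κ : ℂ)
    refine h1.congr fun k => ?_
    rw [fc_pg M hM κ hτ, pg_apply, gau_apply]
  have h := poisson (pg M κ τ) (locSum_pg M hM κ hτ) (integrable_pg M hM κ hτ) hs x
  simpa only [fc_pg M hM κ hτ] using h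

end

end Vale.Agent.P022.H420
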